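import Crest.Agent.X212.Cyc79.Defs
import Crest.Agent.X212.Sob92.Bas
import Crest.Agent.X212.Sob92.Lim
import Crest.Agent.X212.Wrd81.Ap
import Crest.Agent.X212.Sob92.Fun
import Crest.Agent.X212.Mon62.Nem0
import Crest.Agent.X212.Dgr80.Tr

-- ▼ part X212/Cyc79/WS
section

/-!
# Row 212, CYC (helper79): weakly smooth maps into a Hilbert space are smooth
-/

set_option autoImplicit false
set_option linter.unusedSectionVars false
noncomputable section
open scoped Manifold ContDiff Topology InnerProductSpace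
open MeasureTheory Set Function Filter Metric

namespace Crest.Agent.X212.Cyc79
open An Sob92

section flat
variable {E K : Type*} [NormedAddCommGroup E] [NormedSpace ℝ E] [FiniteDimensional ℝ E]
  [NormedAddCommGroup K] [InnerProductSpace ℝ K] [CompleteSpace K] {U : Set E} {f : E → K}

/-- a weakly bounded family is bounded -/
theorem bdd_of_weak {J : Type*} {v : J → K} (h : ∀ k : K, ∃ C, ∀ j, |⟪k, v j⟫_ℝ| ≤ C) :
    ∃ C, 0 ≤ C ∧ ∀ j, ‖v j‖ ≤ C := by
  obtain ⟨C, hC⟩ := banach_steinhaus (g := fun j => innerSL ℝ (v j)) fun k => by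
    obtain ⟨C, hC⟩ := h k
    exact ⟨C, fun j => by simpa [real_inner_comm] using hC j⟩
  exact ⟨|C|, abs_nonneg _, fun j => by simpa using (hC j).trans (le_abs_self C)⟩

theorem ws_lip (hU : IsOpen U) (hf : ∀ k, ContDiffOn ℝ ∞ (fun x => ⟪k, f x⟫_ℝ) U) {x₀ : E}
    (hx : x₀ ∈ U) : ∃ r > 0, ∃ C, 0 ≤ C ∧ closedBall x₀ r ⊆ U ∧
      ∀ x ∈ closedBall x₀ r, ∀ y ∈ closedBall x₀ r, ‖f x - f y‖ ≤ C * ‖x - y‖ := by
  obtain ⟨r, hr, hs⟩ := nhds_basis_closedBall.mem_iff.1 (hU.mem_nhds hx)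
  have := FiniteDimensional.proper_real E
  obtain ⟨C, hC0, hC⟩ := bdd_of_weak
    (v := fun p : closedBall x₀ r × closedBall x₀ r => ‖p.1.1 - p.2.1‖⁻¹ • (f p.1.1 - f p.2.1))
    fun k => by
      have hc : ContinuousOn (fderiv ℝ fun x => ⟪k, f x⟫_ℝ) (closedBall x₀ r) :=
        ((hf k).continuousOn_fderiv_of_isOpen hU (by simp)).mono hs
      obtain ⟨C, hC⟩ := (isCompact_closedBall x₀ r).exists_bound_of_continuousOn hc
      refine ⟨|C|, fun p => ?_⟩
      have := (convex_closedBall x₀ r).norm_image_sub_le_of_norm_fderiv_le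
        (f := fun x => ⟪k, f x⟫_ℝ) (C := |C|)
        (fun x hx => ((hf k).contDiffAt (hU.mem_nhds (hs hx))).differentiableAt (by simp))
        (fun x hx => (hC x hx).trans (le_abs_self C)) p.2.2 p.1.2
      rw [inner_smul_right, inner_sub_right, abs_mul, abs_inv, abs_norm]
      rcases (norm_nonneg (p.1.1 - p.2.1)).eq_or_lt with h | h
      · rw [← h]; simp
      · rw [inv_mul_le_iff₀ h, mul_comm]; exact this
  refine ⟨r, hr, C, hC0, hs, fun x hx y hy => ?_⟩
  have := hC (⟨x, hx⟩, ⟨y, hy⟩)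
  rcases (norm_nonneg (x - y)).eq_or_lt with h | h
  · rw [sub_eq_zero.1 (norm_eq_zero.1 h.symm)]; simp
  · rwa [norm_smul, norm_inv, norm_norm, inv_mul_le_iff₀ h, mul_comm] at this

theorem ws_cont (hU : IsOpen U) (hf : ∀ k, ContDiffOn ℝ ∞ (fun x => ⟪k, f x⟫_ℝ) U) :
    ContinuousOn f U := fun x₀ hx => by
  obtain ⟨r, hr, C, h0, -, h⟩ := ws_lip hU hf hx
  have : LipschitzOnWith C.toNNReal f (closedBall x₀ r) :=
    LipschitzOnWith.of_dist_le' fun x hx y hy => by simpa [dist_eq_norm] using h x hx y hy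
  exact (this.continuousOn.continuousAt (closedBall_mem_nhds x₀ hr)).continuousWithinAt

theorem ws_der (hU : IsOpen U) (hf : ∀ k, ContDiffOn ℝ ∞ (fun x => ⟪k, f x⟫_ℝ) U) {x : E}
    (hx : x ∈ U) : ∃ g : E →L[ℝ] K, ∀ k v, ⟪k, g v⟫_ℝ = fderiv ℝ (fun x => ⟪k, f x⟫_ℝ) x v := by
  obtain ⟨r, hr, C, h0, -, h⟩ := ws_lip hU hf hx
  have hd : ∀ k, DifferentiableAt ℝ (fun x => ⟪k, f x⟫_ℝ) x := fun k =>
    ((hf k).contDiffAt (hU.mem_nhds hx)).differentiableAt (by simp)
  let L : K →ₗ[ℝ] E →L[ℝ] ℝ :=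
    { toFun := fun k => fderiv ℝ (fun x => ⟪k, f x⟫_ℝ) x
      map_add' := fun k l => by
        simp only [inner_add_left]; exact fderiv_fun_add (hd k) (hd l)
      map_smul' := fun t k => by
        simp only [real_inner_smul_left, RingHom.id_apply]
        exact fderiv_fun_const_smul (hd k) t }
  have hb : ∀ k, ‖L k‖ ≤ C * ‖k‖ := fun k => by
    refine norm_fderiv_le_of_lip' ℝ (by positivity) ?_
    filter_upwards [closedBall_mem_nhds x hr] with y hy
    rw [← inner_sub_right]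
    refine (norm_inner_le_norm _ _).trans ?_
    have := h y hy x (mem_closedBall_self hr.le)
    calc ‖k‖ * ‖f y - f x‖ ≤ ‖k‖ * (C * ‖y - x‖) := by gcongr
      _ = C * ‖k‖ * ‖y - x‖ := by ring
  refine ⟨(InnerProductSpace.toDual ℝ K).symm.toContinuousLinearEquiv.toContinuousLinearMap ∘L
    (L.mkContinuous C hb).flip, fun k v => ?_⟩
  rw [real_inner_comm]
  exact InnerProductSpace.toDual_symm_apply

theorem ws_nat (hU : IsOpen U) (n : ℕ) : ∀ {f : E → K},
    (∀ k, ContDiffOn ℝ ∞ (fun x => ⟪k, f x⟫_ℝ) U) → ContDiffOn ℝ n f U := by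
  induction n with
  | zero => exact fun hf => contDiffOn_zero.2 (ws_cont hU hf)
  | succ n ih =>
    intro f hf
    choose! g hg using fun x hx => ws_der hU hf (x := x) hx
    have hw : ∀ v k, ContDiffOn ℝ ∞ (fun x => ⟪k, g x v⟫_ℝ) U := fun v k =>
      ((((hf k).fderiv_of_isOpen hU (m := ∞) (by simp)).clm_apply
        (contDiffOn_const (c := v)))).congr fun x hx => hg x hx k v
    have hc : ContinuousOn g U := continuousOn_clm_apply.2 fun v => ws_cont hU (hw v)
    have hd : ∀ x ∈ U, HasFDerivAt f (g x) x := fun x hx => by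
      rw [hasFDerivAt_iff_isLittleO, Asymptotics.isLittleO_iff]
      intro ε hε
      have h1 : ∀ᶠ y in 𝓝 x, y ∈ U ∧ ‖g y - g x‖ ≤ ε := by
        filter_upwards [hU.mem_nhds hx, (hc.continuousAt (hU.mem_nhds hx)).eventually
          (closedBall_mem_nhds (g x) hε)] with y h1 h2 using ⟨h1, by simpa [dist_eq_norm] using h2⟩
      obtain ⟨r, hr, hs⟩ := nhds_basis_ball.eventually_iff.1 h1
      filter_upwards [ball_mem_nhds x hr] with y hy
      set k := f y - f x - g x (y - x)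
      have := (convex_ball x r).norm_image_sub_le_of_norm_hasFDerivWithin_le'
        (f := fun x => ⟪k, f x⟫_ℝ) (f' := fun z => innerSL ℝ k ∘L g z) (φ := innerSL ℝ k ∘L g x)
        (C := ‖k‖ * ε) (fun z hz => by
          have : innerSL ℝ k ∘L g z = fderiv ℝ (fun x => ⟪k, f x⟫_ℝ) z :=
            ContinuousLinearMap.ext fun v => hg z (hs hz).1 k v
          rw [this]
          exact (((hf k).contDiffAt (hU.mem_nhds (hs hz).1)).differentiableAt
            (by simp)).hasFDerivAt.hasFDerivWithinAt)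
        (fun z hz => by
          rw [← ContinuousLinearMap.comp_sub]
          refine (ContinuousLinearMap.opNorm_comp_le _ _).trans ?_
          rw [innerSL_apply_norm]
          exact mul_le_mul_of_nonneg_left (hs hz).2 (norm_nonneg _)) (mem_ball_self hr) hy
      rw [ContinuousLinearMap.comp_apply, innerSL_apply_apply, ← inner_sub_right,
        ← inner_sub_right, real_inner_self_eq_norm_sq, Real.norm_eq_abs, abs_of_nonneg (sq_nonneg _),
        sq, mul_assoc] at this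
      rcases (norm_nonneg k).eq_or_lt with h | h
      · rw [← h]; positivity
      · exact le_of_mul_le_mul_left this h
    rw [Nat.cast_succ, contDiffOn_succ_iff_fderiv_of_isOpen hU]
    refine ⟨fun x hx => (hd x hx).differentiableAt.differentiableWithinAt, by simp, ?_⟩
    exact (contDiffOn_clm_apply.2 fun v => ih (hw v)).congr fun x hx => (hd x hx).fderiv

/-- **weakly smooth maps are smooth** -/
theorem ws_on (hU : IsOpen U) (hf : ∀ k, ContDiffOn ℝ ∞ (fun x => ⟪k, f x⟫_ℝ) U) :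
    ContDiffOn ℝ ∞ f U := contDiffOn_infty.2 fun n => ws_nat hU n hf

end flat

variable {E : Type} [NormedAddCommGroup E] [NormedSpace ℝ E] [FiniteDimensional ℝ E]
  [MeasurableSpace E] [BorelSpace E]
  {HM : Type} [TopologicalSpace HM] {I : ModelWithCorners ℝ E HM} [I.Boundaryless]
  {M : Type} [TopologicalSpace M] [ChartedSpace HM M] [IsManifold I ∞ M]
  [MeasurableSpace M] {ι : Type} [Fintype ι]
  {K : Type} [NormedAddCommGroup K] [InnerProductSpace ℝ K] [CompleteSpace K]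

theorem sm_of_weak {f : M → K} (hf : ∀ k, Sm I fun x => ⟪k, f x⟫_ℝ) : Sm I f := fun x₀ => by
  have h : ContDiffOn ℝ ∞ (f ∘ (extChartAt I x₀).symm) (extChartAt I x₀).target :=
    ws_on (isOpen_extChartAt_target x₀) fun k =>
      ((hf k).comp_contMDiffOn (contMDiffOn_extChartAt_symm x₀)).contDiffOn
  have h1 := (h.contDiffAt (extChartAt_target_mem_nhds x₀)).contMDiffAt
  exact (h1.comp x₀ contMDiffAt_extChartAt).congr_of_eventuallyEq
    (eq_comp_chart (mem_chart_source HM x₀) f)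

omit [I.Boundaryless] in
theorem D_clm (F : Pre I M ι) {N N' : Type} [NormedAddCommGroup N] [NormedSpace ℝ N]
    [NormedAddCommGroup N'] [NormedSpace ℝ N'] (L : N →L[ℝ] N') {f : M → N} (hf : Sm I f) (a : ι) :
    F.D a (fun x => L (f x)) = fun x => L (F.D a f x) :=
  funext fun _ => dv_clm L (hf.mdifferentiableAt (by simp))

omit [I.Boundaryless] in
theorem Dw_clm (F : Pre I M ι) {N N' : Type} [NormedAddCommGroup N] [NormedSpace ℝ N]
    [NormedAddCommGroup N'] [NormedSpace ℝ N'] (L : N →L[ℝ] N') (w : List ι) :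
    ∀ {f : M → N}, Sm I f → F.Dw w (fun x => L (f x)) = fun x => L (F.Dw w f x) := by
  induction w with
  | nil => exact fun _ => rfl
  | cons a w ih => intro f hf; rw [Pre.Dw, D_clm F L hf, ih (F.sm_D hf a)]; rfl

theorem cb_of_weak {F : Pre I M ι} {f : M → K} (hf : ∀ k, F.Cb fun x => ⟪k, f x⟫_ℝ) : F.Cb f := by
  have hs : Sm I f := sm_of_weak fun k => (hf k).choose_spec.1
  have : ∀ n : ℕ, ∃ C, F.CB n f C := fun n => by
    obtain ⟨C, -, hC⟩ := bdd_of_weak
      (v := fun p : {w : List ι // w.length ≤ n} × M => F.Dw p.1.1 f p.2) fun k => by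
        obtain ⟨C, hC⟩ := hf k
        refine ⟨C n, fun p => ?_⟩
        have := hC.2 n p.1.1 p.1.2 p.2
        rwa [show (fun x => ⟪k, f x⟫_ℝ) = fun x => innerSL ℝ k (f x) from rfl, Dw_clm F _ _ hs]
          at this
    exact ⟨C, fun w hw x => hC (⟨w, hw⟩, x)⟩
  choose C hC using this
  exact ⟨C, hs, hC⟩

variable {κ : Type} [Fintype κ]

theorem inner_fm (η v : Fm κ K) :
    ⟪η, v⟫_ℝ = ∑ i, PiLp.proj (𝕜 := ℝ) 2 (fun _ : κ => ℝ) i (ct (η i) v) := PiLp.inner_apply η v

theorem sm_of_ct {α : M → Fm κ K} (h : ∀ k, Sm I fun x => ct k (α x)) : Sm I α :=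
  sm_of_weak fun η => by
    simp only [inner_fm]
    exact contMDiff_finsetSum fun i _ => (ContinuousLinearMap.contMDiff _).comp (h (η i))

theorem cb_of_ct {F : Pre I M ι} {α : M → Fm κ K} (h : ∀ k, F.Cb fun x => ct k (α x)) : F.Cb α :=
  cb_of_weak fun η => by
    simp only [inner_fm]
    exact Cb_sum _ fun i _ => Cb_clm _ (h (η i))

theorem ext_ct {v w : Fm κ K} (h : ∀ k, ct k v = ct k w) : v = w := by
  ext i
  exact ext_inner_left ℝ fun k => congrArg (fun y : Eu κ => y i) (h k)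

end Crest.Agent.X212.Cyc79
end
end

-- ▼ part X212/Cyc79/Blk
section

/-!
# Row 212, CYC (helper79): smoothing operators and their fields
-/

set_option autoImplicit false
set_option linter.unusedSectionVars false
noncomputable section
open scoped Manifold ContDiff Topology InnerProductSpace
open MeasureTheory Set Function Filter

namespace Crest.Agent.X212.Cyc79
open An Sob92 Wz78 Dgr80
open Wrd81 (wd RH QH GH lap1)

variable {E : Type} [NormedAddCommGroup E] [NormedSpace ℝ E] [FiniteDimensional ℝ E]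
  [MeasurableSpace E] [BorelSpace E]
  {HM : Type} [TopologicalSpace HM] {I : ModelWithCorners ℝ E HM} [I.Boundaryless]
  {M : Type} [TopologicalSpace M] [ChartedSpace HM M] [IsManifold I ∞ M]
  [MeasurableSpace M] [T2Space M] [BorelSpace M] [SecondCountableTopology M]
  {ι : Type} [Fintype ι]

section gen
variable {V : Type} [NormedAddCommGroup V] [InnerProductSpace ℝ V]

/-- bounded geometry and a bounded metric connection -/
structure Ok (F : Fr I M ι) (A : ι → M → V →L[ℝ] V) : Prop where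
  tame : ∃ C, F.Tame C
  cb : ∀ a, F.Cb (A a)
  sk : ∀ a x, Skew (A a x)
  proj : ∀ a x, ∑ b, F.P a b x • A b x = A a x

/-- elements of all levels -/
def Lv (F : Pre I M ι) (x : F.H 0 (triv M V)) : Prop :=
  ∀ k, ∃ y : F.H k (triv M V), F.incl k 0 _ y = x

/-- multiplication operators on `L²` -/
abbrev mO (F : Pre I M ι) (T : M → V →L[ℝ] V) : F.H 0 (triv M V) →L[ℝ] F.H 0 (triv M V) :=
  F.mulH 0 _ _ T

/-- the symbol of the commutator `[1 + ∇*∇, χ]` -/
def cmS (F : Fr I M ι) (V : Type) [NormedAddCommGroup V] [InnerProductSpace ℝ V] (χ : M → ℝ)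
    (a : ι) (x : M) : V →L[ℝ] V := (-2 * F.D a χ x) • ContinuousLinearMap.id ℝ V

/-- its zero order part -/
def cmB (F : Fr I M ι) (A : ι → M → V →L[ℝ] V) (χ : M → ℝ) (x : M) : V →L[ℝ] V :=
  ∑ a, ((-2 * F.D a χ x) • A a x -
    (F.D a (F.D a χ) x + F.dv a x * F.D a χ x) • ContinuousLinearMap.id ℝ V)

variable {F : Fr I M ι} {A : ι → M → V →L[ℝ] V} {x y : F.H 0 (triv M V)} {u v : M → V}

theorem cb_sm {N : Type} [NormedAddCommGroup N] [NormedSpace ℝ N] {F : Pre I M ι} {f : M → N}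
    (h : F.Cb f) : Sm I f := h.choose_spec.1

theorem cb_bdd {N : Type} [NormedAddCommGroup N] [NormedSpace ℝ N] {F : Pre I M ι} {f : M → N}
    (h : F.Cb f) : ∃ C, ∀ x, ‖f x‖ ≤ C := ⟨_, CB_zero.1 (h.choose_spec.2 0)⟩

theorem Ok.mc (h : Ok F A) : Mp86.Mc I A := ⟨fun a => cb_sm (h.cb a), h.sk⟩

theorem Ok.bmp (h : Ok F A) : Mp86.Bumps I F.e F.dv := Mp86.bumps_of_tame F h.tame.choose_spec

theorem Ok.cdv (h : Ok F A) (a : ι) : F.Cb (F.dv a) := ⟨_, h.tame.choose_spec.dv a⟩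

theorem lap1_cm (hA : ∀ a, Sm I (A a)) {χ : M → ℝ} (hχ : Sm I χ) (hu : Sm I u) (z : M) :
    lap1 F A (fun y => χ y • u y) z = χ z • lap1 F A u z + F.op (cmS F V χ) (cmB F A χ) u z := by
  rw [Wrd81.lap1_smul F hA hχ hu]
  simp only [Pre.op, cmS, cmB, Wrd81.cov, sum_apply, sub_apply, smul_apply,
    ContinuousLinearMap.id_apply]
  simp only [Finset.sum_sub_distrib, smul_add, Finset.sum_add_distrib,
    Finset.smul_sum, Finset.sum_smul, smul_smul, neg_mul, neg_smul, Finset.sum_neg_distrib, add_smul]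
  abel

theorem cb_cmS {χ : M → ℝ} (hχ : F.Cb χ) (a : ι) : F.Cb (cmS F V χ a) :=
  Cb_smul (Cb_bil (.mul ℝ ℝ) (Cb_const _) (Cb_D hχ a)) (Cb_const _)

theorem Ok.cb_cmB (h : Ok F A) {χ : M → ℝ} (hχ : F.Cb χ) : F.Cb (cmB F A χ) :=
  Cb_sum _ fun a _ => Cb_sub (Cb_smul (Cb_bil (.mul ℝ ℝ) (Cb_const _) (Cb_D hχ a)) (h.cb a))
    (Cb_smul (Cb_add (Cb_D (Cb_D hχ a) a) (Cb_bil (.mul ℝ ℝ) (h.cdv a) (Cb_D hχ a))) (Cb_const _))

/-- the commutator only sees the section near the support of `χ` -/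
theorem cm_cut {χ χ' φ : M → ℝ} (hφ : Continuous φ) {s t : ℝ} (hst : s < t)
    (h0 : ∀ z, φ z < t → χ z = 0) (h1 : ∀ z, s < φ z → χ' z = 1) (u : M → V) :
    F.op (cmS F V χ) (cmB F A χ) (fun z => χ' z • u z) = F.op (cmS F V χ) (cmB F A χ) u := by
  funext z
  rcases lt_or_ge s (φ z) with h | h
  · have e : (fun z => χ' z • u z) =ᶠ[𝓝 z] u := by
      filter_upwards [(isOpen_lt continuous_const hφ).mem_nhds h] with y hy
      rw [h1 y hy, one_smul]
    simp only [Pre.op, Pre.D_def, dv_congr e, e.eq_of_nhds]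
  · have hO := (isOpen_lt hφ (continuous_const (y := t))).mem_nhds (h.trans_lt hst)
    have e : ∀ {g : M → ℝ} (a : ι), (∀ z, φ z < t → g z = 0) → ∀ z, φ z < t → F.D a g z = 0 :=
      fun {g} a hg z hz => by
        have : g =ᶠ[𝓝 z] fun _ => 0 := by
          filter_upwards [(isOpen_lt hφ (continuous_const (y := t))).mem_nhds hz] with y hy
          exact hg y hy
        rw [Pre.D_def, dv_congr this, dv_const]; rfl
    have hz := h.trans_lt hst
    simp [Pre.op, cmS, cmB, fun a => e a h0 z hz, fun a => e a (e a h0) z hz]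

theorem Lv.add (hx : Lv F.toPre x) (hy : Lv F.toPre y) : Lv F.toPre (x + y) := fun k =>
  let ⟨a, ha⟩ := hx k; let ⟨b, hb⟩ := hy k; ⟨a + b, by rw [map_add, ha, hb]⟩

theorem Lv.smul (hx : Lv F.toPre x) (t : ℝ) : Lv F.toPre (t • x) := fun k =>
  let ⟨a, ha⟩ := hx k; ⟨t • a, by rw [map_smul, ha]⟩

theorem Lv.zero : Lv F.toPre (0 : F.H 0 (triv M V)) := fun _ => ⟨0, map_zero _⟩

theorem lv_toH (u : Sec I (triv M V)) : Lv F.toPre (F.toH 0 _ u) := fun k =>
  ⟨F.toH k _ u, incl_toH (Nat.zero_le k) u⟩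

theorem Lv.mul (hx : Lv F.toPre x) {T : M → V →L[ℝ] V} (hT : F.Cb T) :
    Lv F.toPre (mO F.toPre T x) := fun k =>
  let ⟨a, ha⟩ := hx k
  ⟨F.mulH k _ _ T a, by rw [incl_mulH hT (Maps.triv T) (Nat.zero_le k), ha]⟩

variable [CompleteSpace V]

theorem is_eq {k : ℕ} {x : F.H k (triv M V)} (hu : Is F.toPre k _ x u) (hv : Is F.toPre k _ x v)
    (cu : Continuous u) (cv : Continuous v) : u = v :=
  (cu.ae_eq_iff_eq F.μ cv).1 (hu.symm.trans hv)

theorem Lv.cb {S : ℝ} (hS : Sup F.toPre S) (hx : Lv F.toPre x) :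
    ∃ u, F.Cb u ∧ Is F.toPre 0 _ x u := by
  obtain ⟨y, rfl⟩ := hx 4
  refine ⟨_, Cb_val hS le_rfl fun j hj => ?_, (Is.val hS le_rfl y).incl (Nat.zero_le 4)⟩
  obtain ⟨g, hg⟩ := hx j
  exact ⟨g, incl_injective (Nat.zero_le 4) (by rw [incl_incl hj (Nat.zero_le _), hg])⟩

theorem is_inner (hx : Is F.toPre 0 _ x u) (φ : Sec I (triv M V)) :
    ⟪F.toH 0 _ φ, x⟫_ℝ = ∫ z, ⟪φ.1 z, u z⟫_ℝ ∂F.μ := by
  have := hx.inner_toH φ
  rwa [incl_self, real_inner_comm, Pre.ip_comm] at this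

omit [CompleteSpace V] in
theorem mO_adj {T T' : M → V →L[ℝ] V} (hT : F.Cb T) (hT' : F.Cb T')
    (h : ∀ z v w, ⟪T z v, w⟫_ℝ = ⟪v, T' z w⟫_ℝ) (x y : F.H 0 (triv M V)) :
    ⟪mO F.toPre T x, y⟫_ℝ = ⟪x, mO F.toPre T' y⟫_ℝ := by
  refine H_eq₂ (f := fun x y => ⟪mO F.toPre T x, y⟫_ℝ) (g := fun x y => ⟪x, mO F.toPre T' y⟫_ℝ)
    (by fun_prop) (by fun_prop) (fun u v => ?_) x y
  simp only [RepT_toH (rep_mulH hT (Maps.triv T)), RepT_toH (rep_mulH hT' (Maps.triv T')),
    Pre.inner_toH, Pre.ip, h]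

end gen

section fin
variable {V : Type} [NormedAddCommGroup V] [InnerProductSpace ℝ V] [FiniteDimensional ℝ V]
  {F : Fr I M ι} {A : ι → M → V →L[ℝ] V} {x y : F.H 0 (triv M V)} {u v : M → V}

local instance : CompleteSpace V := FiniteDimensional.complete ℝ V

variable (F A) in
/-- the resolvent on `L²` -/
def G0 : F.H 0 (triv M V) →L[ℝ] F.H 0 (triv M V) := F.incl 2 0 _ ∘L GH F A 0

theorem Ok.rh (h : Ok F A) : RH F A := Wrd81.rh_of_tame h.tame.choose_spec h.cb h.sk h.proj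

theorem Ok.sup (h : Ok F A) : Sup F.toPre (h.tame.choose 0) := Sup.of_tame h.tame.choose_spec

theorem Ok.G_symm (h : Ok F A) (x y : F.H 0 (triv M V)) : ⟪G0 F A x, y⟫_ℝ = ⟪x, G0 F A y⟫_ℝ :=
  h.rh.rsd.symm x y

theorem Lv.G (h : Ok F A) (hx : Lv F.toPre x) : Lv F.toPre (G0 F A x) := fun k => by
  obtain ⟨a, rfl⟩ := hx k
  exact ⟨F.incl (k + 2) k _ (GH F A k a), by
    rw [incl_incl (by omega) (Nat.zero_le _), ← h.rh.G0_incl]; rfl⟩

/-- on `H^∞` the resolvent is `Fr.res` -/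
theorem Ok.res (h : Ok F A) (hx : Lv F.toPre x) (hu : Sm I u) (hr : Is F.toPre 0 _ x u) :
    F.IsRes A u (F.res A u) ∧ F.Cb (F.res A u) ∧ Is F.toPre 0 _ (G0 F A x) (F.res A u) := by
  obtain ⟨v, h1, h2⟩ := (hx.G h).cb h.sup
  have h3 : h.rh.rsd.Rp x (lap1 F A v) := fun φ => by
    rw [← Wrd81.ibp_lap1 F h.mc.sm h.sk φ.2.1 φ.2.2.1 (cb_sm h1)]
    have := is_inner h2 (Wrd81.RsD.lapT F h.mc.sm φ)
    rw [← h.rh.rsd.G_lap h.mc.sm, h.rh.rsd.symm]
    exact this
  have h4 : F.IsRes A u v := ⟨cb_sm h1, cb_bdd h1, fun x => by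
    rw [Wrd81.L2D.Rp.eq (r := h.rh.rsd.toL2D) (is_inner hr) h3 hu
      (Wrd81.sm_lap1 F h.mc.sm (cb_sm h1)), Wrd81.lap1_eq]⟩
  rw [Mp86.res_eq h.bmp h.mc h4]
  exact ⟨h4, h1, h2⟩

theorem Ok.QH_smul (h : Ok F A) {χ : M → ℝ} (hχ : F.Cb χ) (j : ℕ) (y : F.H (j + 2) (triv M V)) :
    QH F A j (smulH F.toPre (j + 2) _ χ y) = smulH F.toPre j _ χ (QH F A j y) +
      F.opH j _ _ (cmS F V χ) (cmB F A χ) (F.incl (j + 2) (j + 1) _ y) :=
  DFunLike.congr_fun (RepT_eq (RepT_comp (h.rh.ell.spec j).1 (rep_smulH hχ))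
    (RepT_add (RepT_comp (rep_smulH hχ) (h.rh.ell.spec j).1)
      (RepT_comp (rep_opH (cb_cmS hχ) (h.cb_cmB hχ) (fun _ _ _ => rfl) (Maps.triv _))
        (rep_incl (by omega)))) fun u => funext fun z =>
      lap1_cm h.mc.sm (cb_sm hχ) u.2.1 z) y

theorem exists_cut {F : Pre I M ι} {φ : M → ℝ} (hφ : F.Cb φ) {s t : ℝ} (hst : s < t) :
    ∃ χ : M → ℝ, F.Cb χ ∧ (∀ z, φ z ≤ s → χ z = 0) ∧ (∀ z, t ≤ φ z → χ z = 1) ∧
      ∀ z, 0 ≤ χ z ∧ χ z ≤ 1 := by
  have h : 0 < t - s := sub_pos.2 hst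
  refine ⟨fun z => Real.smoothTransition ((φ z - s) / (t - s)), Mon62.Cb_comp_fun
    (h := fun r => Real.smoothTransition ((r - s) / (t - s)))
    (Real.smoothTransition.contDiff.comp (by fun_prop)) hφ, fun z hz => ?_, fun z hz => ?_,
    fun z => ⟨Real.smoothTransition.nonneg _, Real.smoothTransition.le_one _⟩⟩
  · exact Real.smoothTransition.zero_of_nonpos (div_nonpos_of_nonpos_of_nonneg (by linarith) h.le)
  · exact Real.smoothTransition.one_of_one_le (by rw [le_div_iff₀ h]; linarith)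

/-- interior regularity on the scale -/
theorem Ok.gain (h : Ok F A) {φ : M → ℝ} (hφ : F.Cb φ) {y : F.H 2 (triv M V)}
    (hy : ∀ χ : M → ℝ, F.Cb χ → (∀ z, φ z ≤ 0 → χ z = 0) → smulH F.toPre 0 _ χ (QH F A 0 y) = 0)
    (m : ℕ) : ∀ {χ : M → ℝ} {t : ℝ}, F.Cb χ → 0 < t → (∀ z, φ z < t → χ z = 0) →
      ∃ y' : F.H (m + 2) (triv M V), F.incl (m + 2) 2 _ y' = smulH F.toPre 2 _ χ y := by
  induction m with
  | zero => exact fun _ _ _ => ⟨_, incl_self _⟩
  | succ m ih =>
    intro χ t hχ ht h0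
    obtain ⟨χ', c1, c2, c3, -⟩ := exists_cut hφ (show t / 4 < t / 2 by linarith)
    obtain ⟨y', hy'⟩ := ih c1 (show 0 < t / 4 by linarith) fun z hz => c2 z hz.le
    have R := fun j => rep_opH (F := F.toPre) (k := j) (p := triv M V) (q := triv M V)
      (cb_cmS hχ) (h.cb_cmB hχ) (fun _ _ _ => rfl) (Maps.triv _)
    refine ⟨GH F A (m + 1) (F.opH (m + 1) _ _ (cmS F V χ) (cmB F A χ) y'), ?_⟩
    refine (h.rh.ell.spec 0).2.1 ?_
    rw [h.rh.ell.incl_G (Nat.zero_le _), h.rh.ell.Q_G, h.QH_smul hχ 0,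
      hy χ hχ fun z hz => h0 z (hz.trans_lt ht), zero_add,
      Rep_incl (R (m + 1)) (R 0) (by omega) (Nat.zero_le _),
      ← incl_incl (j := 2) (by omega) (by omega), hy']
    exact DFunLike.congr_fun (RepT_eq (RepT_comp (R 0) (RepT_comp (rep_incl (by omega))
      (rep_smulH c1))) (RepT_comp (R 0) (rep_incl (by omega))) fun u =>
        cm_cut (cb_sm hφ).continuous (show t / 2 < t by linarith) h0 (fun z hz => c3 z hz.le) u.1) y

theorem smulH_smulH {F : Pre I M ι} {f g : M → ℝ} (hf : F.Cb f) (hg : F.Cb g) {k : ℕ}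
    (x : F.H k (triv M V)) :
    smulH F k _ f (smulH F k _ g x) = smulH F k _ (fun z => f z * g z) x :=
  DFunLike.congr_fun (RepT_eq (RepT_comp (rep_smulH hf) (rep_smulH hg))
    (rep_smulH (Cb_bil (.mul ℝ ℝ) hf hg)) fun _ => funext fun _ => smul_smul _ _ _) x

theorem smulH_zero {F : Pre I M ι} {f : M → ℝ} (hf : ∀ z, f z = 0) {k : ℕ} (x : F.H k (triv M V)) :
    smulH F k _ f x = 0 := by
  obtain rfl : f = fun _ => 0 := funext hf
  exact DFunLike.congr_fun (RepT_eq (rep_smulH (Cb_const 0)) RepT_zero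
    fun _ => funext fun _ => zero_smul _ _) x

/-- **`f G f'` is smoothing** -/
theorem Ok.lv_sep (h : Ok F A) {f f' φ : M → ℝ} (hf : F.Cb f) (hf' : F.Cb f') (hφ : F.Cb φ)
    {t : ℝ} (ht : 0 < t) (h1 : ∀ z, φ z < t → f z = 0) (h0 : ∀ z, f' z ≠ 0 → φ z ≤ 0)
    (x : F.H 0 (triv M V)) :
    Lv F.toPre (smulH F.toPre 0 _ f (G0 F A (smulH F.toPre 0 _ f' x))) := fun k => by
  obtain ⟨y, hy⟩ := h.gain hφ (y := GH F A 0 (smulH F.toPre 0 _ f' x)) (fun χ hχ hz => by
    rw [h.rh.ell.Q_G, smulH_smulH hχ hf']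
    refine smulH_zero (fun z => ?_) x
    by_cases e : f' z = 0
    · rw [e, mul_zero]
    · rw [hz z (h0 z e), zero_mul]) k hf ht h1
  refine ⟨F.incl (k + 2) k _ y, ?_⟩
  rw [incl_incl (by omega) (Nat.zero_le _), ← incl_incl (j := 2) (by omega) (Nat.zero_le _), hy]
  exact Rep_incl (rep_smulH hf) (rep_smulH hf) (Nat.zero_le _) (Nat.zero_le _) _

/-- an operator with values in all levels lifts to every level -/
theorem exists_lift {K : Type} [NormedAddCommGroup K] [NormedSpace ℝ K] [CompleteSpace K]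
    {S : K →L[ℝ] F.H 0 (triv M V)} (hS : ∀ x, Lv F.toPre (S x)) (k : ℕ) :
    ∃ T : K →L[ℝ] F.H k (triv M V), ∀ x, F.incl k 0 _ (T x) = S x := by
  choose t ht using fun x => hS x k
  have inj := incl_injective (F := F) (p := triv M V) (Nat.zero_le k)
  let L : K →ₗ[ℝ] F.H k (triv M V) :=
    { toFun := t
      map_add' := fun x y => inj (by rw [map_add, ht, ht, ht, map_add])
      map_smul' := fun c x => inj (by rw [RingHom.id_apply, map_smul, ht, ht, map_smul]) }
  have hc : Continuous L := L.continuous_of_isClosed_graph (by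
    have : (L.graph : Set (K × F.H k (triv M V))) = {p | F.incl k 0 _ p.2 = S p.1} := by
      ext p
      simp only [SetLike.mem_coe, LinearMap.mem_graph_iff, mem_ofPred_eq]
      exact ⟨fun e => e ▸ ht p.1, fun e => inj (e.trans (ht p.1).symm)⟩
    rw [this]
    exact isClosed_eq (by fun_prop) (by fun_prop))
  exact ⟨⟨L, hc⟩, ht⟩

end fin

end Crest.Agent.X212.Cyc79
end
end

-- ▼ part X212/Cyc79/Fld

/-!
# Row 212, CYC (helper79): the field of a smoothing operator
-/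

set_option autoImplicit false
set_option linter.unusedSectionVars false
noncomputable section
open scoped Manifold ContDiff Topology InnerProductSpace
open MeasureTheory Set Function Filter

namespace Crest.Agent.X212.Cyc79
open An Sob92 Wz78 Dgr80
open Wrd81 (wd)
open ContinuousLinearMap (adjoint)

section lin
variable {κ : Type} [Fintype κ] [DecidableEq κ] {K K' : Type} [NormedAddCommGroup K]
  [InnerProductSpace ℝ K] [NormedAddCommGroup K'] [InnerProductSpace ℝ K']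

theorem en_apply (T : En κ) (v : Eu κ) (i : κ) :
    T v i = ∑ j, T (EuclideanSpace.single j 1) i * v j := by
  conv_lhs => rw [← (EuclideanSpace.basisFun κ ℝ).sum_repr v]
  simp [map_sum, mul_comm]

theorem ct_amp (h : K) (T : En κ) (v : Fm κ K) : ct h (amp K T v) = T (ct h v) := by
  ext i
  rw [en_apply, ct_apply, amp_apply, inner_sum]
  simp [inner_smul_right]

theorem ext_ct' {v w : Fm κ K} (h : ∀ k, ct k v = ct k w) : v = w := by
  ext i
  exact ext_inner_left ℝ fun k => congrArg (fun y : Eu κ => y i) (h k)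

theorem amp_one (v : Fm κ K) : amp K (1 : En κ) v = v := ext_ct' fun k => by rw [ct_amp]; rfl

theorem amp_amp (S T : En κ) (v : Fm κ K) : amp K S (amp K T v) = amp K (S * T) v :=
  ext_ct' fun k => by simp only [ct_amp]; rfl

theorem amp_smul_one (t : ℝ) : amp K (t • (1 : En κ)) = t • (1 : CL (Fm κ K) (Fm κ K)) := by
  rw [map_smul]; congr 1; exact ContinuousLinearMap.ext amp_one

theorem fb_amp (R : K →L[ℝ] K') (T : En κ) (v : Fm κ K) : fb R (amp K T v) = amp K' T (fb R v) := by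
  ext i; simp [amp_apply]

theorem inner_amp {S T : En κ} (h : ∀ v w, ⟪S v, w⟫_ℝ = ⟪v, T w⟫_ℝ) (v w : Fm κ K) :
    ⟪amp K S v, w⟫_ℝ = ⟪v, amp K T w⟫_ℝ := by
  have e : ∀ i j, S (EuclideanSpace.single j 1) i = T (EuclideanSpace.single i 1) j := fun i j => by
    simpa [EuclideanSpace.inner_single_left, EuclideanSpace.inner_single_right] using
      h (EuclideanSpace.single j 1) (EuclideanSpace.single i 1)
  simp only [PiLp.inner_apply, amp_apply, sum_inner, inner_sum, inner_smul_left, inner_smul_right, e]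
  rw [Finset.sum_comm]; simp

theorem skew_amp {T : En κ} (h : Skew T) : Skew (amp K T) := fun v w => by
  rw [inner_amp (T := -T) (fun v w => by rw [h v w]; simp), map_neg]; simp

variable [CompleteSpace K] [CompleteSpace K']

theorem adj_amp (T : En κ) : adjoint (amp K T) = amp K (adjoint T) :=
  ((ContinuousLinearMap.eq_adjoint_iff _ _).2
    (inner_amp fun v w => ContinuousLinearMap.adjoint_inner_left T w v)).symm

theorem ct_fb (h : K') (R : K' →L[ℝ] K) (v : Fm κ K) : ct h (fb (adjoint R) v) = ct (R h) v := by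
  ext i; simp [ContinuousLinearMap.adjoint_inner_right]

theorem inner_fb (R : K →L[ℝ] K') (v : Fm κ K) (w : Fm κ K') :
    ⟪fb R v, w⟫_ℝ = ⟪v, fb (adjoint R) w⟫_ℝ := by
  simp [PiLp.inner_apply, ContinuousLinearMap.adjoint_inner_right]

end lin

variable {E : Type} [NormedAddCommGroup E] [NormedSpace ℝ E] [FiniteDimensional ℝ E]
  [MeasurableSpace E] [BorelSpace E]
  {HM : Type} [TopologicalSpace HM] {I : ModelWithCorners ℝ E HM} [I.Boundaryless]
  {M : Type} [TopologicalSpace M] [ChartedSpace HM M] [IsManifold I ∞ M]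
  [MeasurableSpace M] [T2Space M] [BorelSpace M] [SecondCountableTopology M]
  {ι : Type} [Fintype ι] {κ : Type} [Fintype κ] [DecidableEq κ]
  {K K' : Type} [NormedAddCommGroup K] [InnerProductSpace ℝ K] [CompleteSpace K]
  [NormedAddCommGroup K'] [InnerProductSpace ℝ K'] [CompleteSpace K']

variable (K) in
/-- the connection on the Hilbert fibre -/
def aA (A : ι → M → En κ) : ι → M → CL (Fm κ K) (Fm κ K) := fun a x => amp K (A a x)

/-- `α` is the field of the smoothing operator `S` -/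
structure FI (F : Fr I M ι) (S : K →L[ℝ] KK F.toPre κ) (α : M → Fm κ K) : Prop where
  cb : F.Cb α
  lv : ∀ h, Lv F.toPre (S h)
  is : ∀ h, Is F.toPre 0 _ (S h) fun z => ct h (α z)

variable {F : Fr I M ι} {A : ι → M → En κ} {S T : K →L[ℝ] KK F.toPre κ} {α β : M → Fm κ K}

variable (K) in
theorem Ok.amp (h : Ok F A) : Ok F (aA K A) :=
  ⟨h.tame, fun a => Cb_clm _ (h.cb a), fun a x => skew_amp (h.sk a x), fun a x => by
    simp only [aA, ← map_smul, ← map_sum, h.proj]⟩

theorem itw_ct (h : K) (x : M) : Eqv71.Itw I F.e (aA K A) A (fun _ => ct h) x := fun a => by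
  rw [dv_const]; ext1 v; simp [aA, ct_amp]

theorem itw_fb (R : K →L[ℝ] K') (x : M) :
    Eqv71.Itw I F.e (aA K A) (aA K' A) (fun _ => fb R) x := fun a => by
  rw [dv_const]; ext1 v; simp [aA, fb_amp]

theorem ct_nab (hα : Sm I α) (h : K) (a : ι) (x : M) :
    nab I F.e A a (fun z => ct h (α z)) x = ct h (nab I F.e (aA K A) a α x) :=
  (itw_ct h x).nab mdifferentiableAt_const (hα.mdifferentiableAt (by simp)) a

theorem fb_nab (hα : Sm I α) (R : K →L[ℝ] K') (a : ι) (x : M) :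
    nab I F.e (aA K' A) a (fun z => fb R (α z)) x = fb R (nab I F.e (aA K A) a α x) :=
  (itw_fb R x).nab mdifferentiableAt_const (hα.mdifferentiableAt (by simp)) a

theorem sm_aA (hA : ∀ a, Sm I (A a)) (a : ι) : Sm I (aA K A a) :=
  (amp K).contMDiff.comp (hA a)

theorem ct_lap (hA : ∀ a, Sm I (A a)) (hα : Sm I α) (h : K) (x : M) :
    lap I F.e F.dv A (fun z => ct h (α z)) x = ct h (lap I F.e F.dv (aA K A) α x) :=
  Eqv71.itw_lap (frm F) (.of_forall (itw_ct h)) contMDiffAt_const (fun a => sm_aA hA a x) (hα x) _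

theorem sm_ct (hα : Sm I α) (h : K) : Sm I fun z => ct h (α z) := (ct h).contMDiff.comp hα

/-- weak solutions are solutions -/
theorem isRes_of_ct (hA : ∀ a, Sm I (A a)) (hβ : Sm I β) (hb : ∃ C, ∀ x, ‖β x‖ ≤ C)
    (h : ∀ k, F.IsRes A (fun z => ct k (α z)) fun z => ct k (β z)) : F.IsRes (aA K A) α β :=
  ⟨hβ, hb, fun x => ext_ct fun k => by rw [map_add, ← ct_lap hA hβ]; exact (h k).2.2 x⟩

theorem isRes_fb (hA : ∀ a, Sm I (A a)) (R : K →L[ℝ] K') (h : F.IsRes (aA K A) α β) :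
    F.IsRes (aA K' A) (fun z => fb R (α z)) fun z => fb R (β z) :=
  Mp86.isRes_map (T := fun _ => fb R) (sm_aA hA) contMDiff_const ⟨_, fun _ => le_rfl⟩ (itw_fb R) h

theorem exists_FI {C : ℝ} (hC : Sup F.toPre C) (hS : ∀ h, Lv F.toPre (S h)) : ∃ α, FI F S α := by
  obtain ⟨T, hT⟩ := exists_lift hS 4
  let α : M → Fm κ K := fun z => WithLp.toLp 2 fun i =>
    adjoint (F.ev 4 _ z ∘L T) (EuclideanSpace.single i 1)
  have e : ∀ h, (fun z => ct h (α z)) = F.val 4 _ (T h) := fun h => by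
    ext z i
    simp [α, ContinuousLinearMap.adjoint_inner_right, EuclideanSpace.inner_single_right, Pre.val]
  have hi : ∀ h, Is F.toPre 0 _ (S h) (F.val 4 _ (T h)) := fun h =>
    hT h ▸ (Is.val hC le_rfl (T h)).incl (Nat.zero_le 4)
  refine ⟨α, cb_of_ct fun h => ?_, hS, fun h => e h ▸ hi h⟩
  obtain ⟨u, h1, h2⟩ := (hS h).cb hC
  rw [e, is_eq (hi h) h2 (continuous_val hC le_rfl _) (cb_sm h1).continuous]
  exact h1

namespace FI

theorem sm (h : FI F S α) : Sm I α := cb_sm h.cb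

theorem eq_ct (h : FI F S α) {k : K} {u : M → Eu κ} (hu : Continuous u)
    (hk : Is F.toPre 0 _ (S k) u) (z : M) : ct k (α z) = u z :=
  congrFun (is_eq (h.is k) hk (sm_ct h.sm k).continuous hu) z

theorem unique (h : FI F S α) (h' : FI F S β) : α = β := funext fun z => ext_ct fun k =>
  h.eq_ct (sm_ct h'.sm k).continuous (h'.is k) z

theorem op_eq (h : FI F S α) (h' : FI F T α) : S = T :=
  ContinuousLinearMap.ext fun k => (h.is k).unique (h'.is k)

theorem add (h : FI F S α) (h' : FI F T β) : FI F (S + T) fun z => α z + β z :=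
  ⟨Cb_add h.cb h'.cb, fun k => (h.lv k).add (h'.lv k), fun k => by
    simp only [map_add]; exact (h.is k).add (h'.is k)⟩

theorem smul (h : FI F S α) (t : ℝ) : FI F (t • S) fun z => t • α z :=
  ⟨Cb_smul (Cb_const t) h.cb, fun k => (h.lv k).smul t, fun k => by
    simp only [map_smul]; exact (h.is k).smul t⟩

theorem zero : FI F (0 : K →L[ℝ] KK F.toPre κ) fun _ => 0 :=
  ⟨Cb_const _, fun _ => Lv.zero, fun k => by simp only [map_zero]; exact Is.zero⟩

theorem neg (h : FI F S α) : FI F (-S) fun z => -α z := by simpa using h.smul (-1)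

theorem sub (h : FI F S α) (h' : FI F T β) : FI F (S - T) fun z => α z - β z := by
  simpa only [sub_eq_add_neg] using h.add h'.neg

theorem sum {J : Type*} (s : Finset J) {S : J → K →L[ℝ] KK F.toPre κ} {α : J → M → Fm κ K}
    (h : ∀ j ∈ s, FI F (S j) (α j)) : FI F (∑ j ∈ s, S j) fun z => ∑ j ∈ s, α j z := by
  classical
  induction s using Finset.induction_on with
  | empty => simpa using zero
  | insert j s hj ih =>
    simp only [Finset.sum_insert hj]
    exact (h j (by simp)).add (ih fun i hi => h i (by simp [hi]))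

theorem op (h : FI F S α) {B : M → En κ} (hB : F.Cb B) :
    FI F (mO F.toPre B ∘L S) fun z => amp K (B z) (α z) :=
  ⟨Cb_app (Cb_clm _ hB) h.cb, fun k => (h.lv k).mul hB, fun k => by
    simp only [ct_amp]; exact (h.is k).mulH hB (Maps.triv B)⟩

theorem fsmul (h : FI F S α) {f : M → ℝ} (hf : F.Cb f) :
    FI F (smulH F.toPre 0 _ f ∘L S) fun z => f z • α z := by
  have := h.op (B := fun z => f z • ContinuousLinearMap.id ℝ _) (Cb_smul hf (Cb_const _))
  simp only [map_smul, smul_apply, show ∀ v : Fm κ K, amp K (ContinuousLinearMap.id ℝ (Eu κ)) v = v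
    from amp_one] at this
  exact this

theorem right (h : FI F S α) (R : K' →L[ℝ] K) : FI F (S ∘L R) fun z => fb (adjoint R) (α z) :=
  ⟨Cb_clm _ h.cb, fun k => h.lv _, fun k => by simp only [ct_fb]; exact h.is (R k)⟩

theorem res (h : FI F S α) (hA : Ok F A) :
    F.IsRes (aA K A) α (F.res (aA K A) α) ∧ FI F (G0 F A ∘L S) (F.res (aA K A) α) := by
  obtain ⟨β, hβ⟩ := exists_FI (S := G0 F A ∘L S) hA.sup fun k => (h.lv k).G hA
  have : F.IsRes (aA K A) α β := isRes_of_ct hA.mc.sm hβ.sm (cb_bdd hβ.cb) fun k => by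
    obtain ⟨h1, h2, h3⟩ := hA.res (h.lv k) (sm_ct h.sm k) (h.is k)
    rwa [funext (hβ.eq_ct (cb_sm h2).continuous h3)]
  rw [Mp86.res_eq hA.bmp (hA.amp K).mc this]
  exact ⟨this, hβ⟩

/-- first order operators -/
theorem dop (h : FI F S α) {σ : ι → M → En κ} {B : M → En κ} (hσ : ∀ a, F.Cb (σ a)) (hB : F.Cb B)
    {S₁ : K →L[ℝ] F.H 1 (triv M (Eu κ))} (h1 : ∀ k, F.incl 1 0 _ (S₁ k) = S k) :
    FI F (F.opH 0 _ _ σ B ∘L S₁) (F.op (aA K σ) (fun z => amp K (B z)) α) := by
  have R := fun j => rep_opH (F := F.toPre) (k := j) (p := triv M (Eu κ)) (q := triv M (Eu κ))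
    hσ hB (fun _ _ _ => rfl) (Maps.triv _)
  refine ⟨Cb_add (Cb_sum _ fun a _ => Cb_app (Cb_clm _ (hσ a)) (Cb_D h.cb a))
    (Cb_app (Cb_clm _ hB) h.cb), fun k j => ?_, fun k => ?_⟩
  · obtain ⟨y, hy⟩ := h.lv k (j + 1)
    refine ⟨F.opH j _ _ σ B y, ?_⟩
    rw [Rep_incl (R j) (R 0) (by omega) (Nat.zero_le _), ContinuousLinearMap.comp_apply]
    congr 1
    exact incl_injective (Nat.zero_le 1) (by rw [incl_incl (by omega) (Nat.zero_le _), hy, h1])
  · have := (Is.of_incl (Nat.zero_le 1) (h1 k ▸ h.is k)).opH (q := triv M (Eu κ)) hσ hB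
      (fun _ _ _ => rfl) (Maps.triv _) (sm_ct h.sm k)
    refine this.congr (.of_forall fun z => ?_)
    simp only [Pre.op, D_clm F.toPre _ h.sm, map_add, map_sum, aA, ct_amp]

end FI

theorem ext_toH {F : Pre I M ι} {v w : VV F κ}
    (h : ∀ u : Sec I (triv M (Eu κ)), ct (F.toH 0 _ u) v = ct (F.toH 0 _ u) w) : v = w := by
  ext i
  rw [← sub_eq_zero]
  refine (F.dense_toH 0 _).eq_zero_of_inner_right (𝕜 := ℝ) fun u => ?_
  rw [inner_sub_right, sub_eq_zero]
  exact congrArg (fun y : Eu κ => y i) (h u)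

theorem IsFld.eq {F : Pre I M ι} {T : (M → Eu κ) → M → Eu κ} {α : M → VV F κ} (h : IsFld F T α) :
    fld F T = α := by
  have h0 : ∃ α, IsFld F T α := ⟨α, h⟩
  rw [fld, dif_pos h0]
  exact funext fun z => ext_toH fun u => (h0.choose_spec.2 u z).trans (h.2 u z).symm

theorem fld_cases (F : Pre I M ι) (T : (M → Eu κ) → M → Eu κ) :
    IsFld F T (fld F T) ∨ ((¬∃ α, IsFld F T α) ∧ fld F T = 0) := by
  by_cases h : ∃ α, IsFld F T α
  · exact .inl (by rw [fld, dif_pos h]; exact h.choose_spec)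
  · exact .inr ⟨h, by rw [fld, dif_neg h]⟩

theorem sm_fld (F : Pre I M ι) (T : (M → Eu κ) → M → Eu κ) : Sm I (fld F T) := by
  rcases fld_cases F T with h | h
  · exact h.1
  · rw [h.2]; exact contMDiff_const

theorem FI.isFld {S : KK F.toPre κ →L[ℝ] KK F.toPre κ} {α : M → VV F.toPre κ} (h : FI F S α)
    {T : (M → Eu κ) → M → Eu κ} (hT : ∀ u : Sec I (triv M (Eu κ)), Continuous (T u.1) ∧
      Is F.toPre 0 _ (S (F.toH 0 _ u)) (T u.1)) : IsFld F.toPre T α :=
  ⟨h.sm, fun u z => h.eq_ct (hT u).1 (hT u).2 z⟩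

theorem fld_eq {S : KK F.toPre κ →L[ℝ] KK F.toPre κ} {α : M → VV F.toPre κ} (h : FI F S α)
    {T : (M → Eu κ) → M → Eu κ} (hT : ∀ u : Sec I (triv M (Eu κ)), Continuous (T u.1) ∧
      Is F.toPre 0 _ (S (F.toH 0 _ u)) (T u.1)) : fld F.toPre T = α := (h.isFld hT).eq

/-! ### words -/

variable (F A) in
/-- letters as operators on `L²` -/
def laO : La M → KK F.toPre κ →L[ℝ] KK F.toPre κ
  | .mul f => smulH F.toPre 0 _ f
  | .G => G0 F A

variable (F A) in
/-- words as operators on `L²` -/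
def wO : List (La M) → KK F.toPre κ →L[ℝ] KK F.toPre κ
  | [] => ContinuousLinearMap.id ℝ _
  | t :: w => laO F A t ∘L wO w

theorem wO_append (w w' : List (La M)) : wO F A (w ++ w') = wO F A w ∘L wO F A w' := by
  induction w with
  | nil => rfl
  | cons t w ih => rw [List.cons_append, wO, ih]; rfl

theorem smulH_symm {f : M → ℝ} (hf : F.Cb f) (x y : KK F.toPre κ) :
    ⟪smulH F.toPre 0 _ f x, y⟫_ℝ = ⟪x, smulH F.toPre 0 _ f y⟫_ℝ := by
  rw [smulH_eq]
  exact mO_adj (Cb_smul hf (Cb_const _)) (Cb_smul hf (Cb_const _))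
    (fun z v w => by simp [inner_smul_left, inner_smul_right]) x y

theorem laO_symm (hA : Ok F A) {t : La M} (ht : La.OK F t) (x y : KK F.toPre κ) :
    ⟪laO F A t x, y⟫_ℝ = ⟪x, laO F A t y⟫_ℝ := by
  cases t with
  | mul f => exact smulH_symm ht x y
  | G => exact hA.G_symm x y

theorem adj_wO (hA : Ok F A) {w : List (La M)} (hw : ∀ t ∈ w, La.OK F t) :
    adjoint (wO F A w) = wO F A w.reverse := by
  induction w with
  | nil => exact ContinuousLinearMap.adjoint_id
  | cons t w ih =>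
    rw [wO, ContinuousLinearMap.adjoint_comp, ih fun s hs => hw s (by simp [hs]), List.reverse_cons,
      wO_append, ← (ContinuousLinearMap.eq_adjoint_iff _ _).2 (laO_symm hA (hw t (by simp)))]
    rfl

theorem FI.la (h : FI F S α) (hA : Ok F A) {t : La M} (ht : La.OK F t) :
    FI F (laO F A t ∘L S) (sl F (aA K A) (laV _ t) α) := by
  cases t with
  | mul f => exact h.fsmul ht
  | G => exact (h.res hA).2

theorem FI.wd (h : FI F S α) (hA : Ok F A) {w : List (La M)} (hw : ∀ t ∈ w, La.OK F t) :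
    FI F (wO F A w ∘L S) (wd (sl F (aA K A)) α (w.map (laV _))) := by
  induction w with
  | nil => exact h
  | cons t w ih => exact (ih fun s hs => hw s (by simp [hs])).la hA (hw t (by simp))

theorem slT_laV (t : La M) : slT F (aA K A) (laV _ t) = sl F (aA K (κ := κ) A) (laV _ t) := by
  cases t with
  | mul f => funext l x; simp [slT, sl, laV, ContinuousLinearMap.one_def, ContinuousLinearMap.adjoint_id]
  | G => rfl

theorem bk_laV (w : List (La M)) : ∀ l : M → Fm κ K, bk F (aA K A) (w.map (laV _)) l =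
    wd (sl F (aA K A)) l (w.reverse.map (laV _)) := by
  induction w with
  | nil => exact fun _ => rfl
  | cons t w ih =>
    intro l
    rw [List.map_cons, bk, ih, slT_laV, List.reverse_cons, List.map_append, Wrd81.wd_append]; rfl

theorem Sep.symm {F : Pre I M ι} {f f' : M → ℝ} (h : Sep F f f') : Sep F f' f := by
  obtain ⟨h1, h2, φ, h3, h4, h5⟩ := h
  exact ⟨h2, h1, (fun _ => 1) - φ, Cb_sub (Cb_const _) h3, fun x hx => by
    have := h5 x hx; simp only [Pi.sub_apply]; linarith, fun x hx => by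
    have := h4 x hx; simp only [Pi.sub_apply]; linarith⟩

theorem Sep.ok {f f' : M → ℝ} (h : Sep F.toPre f f') : ∀ t ∈ xw f f', La.OK F t := by
  intro t ht
  simp only [xw, List.mem_cons, List.not_mem_nil, or_false] at ht
  rcases ht with rfl | rfl | rfl
  exacts [h.1, trivial, h.2.1]

theorem Sep.lv {f f' : M → ℝ} (h : Sep F.toPre f f') (hA : Ok F A) (x : KK F.toPre κ) :
    Lv F.toPre (wO F A (xw f f') x) := by
  obtain ⟨h1, h2, φ, h3, h4, h5⟩ := h
  exact hA.lv_sep h1 h2 h3 one_pos (fun z hz => by_contra fun e => (h4 z e).not_gt hz) h5 x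

theorem Lv.fmul {x : KK F.toPre κ} (hx : Lv F.toPre x) {f : M → ℝ} (hf : F.Cb f) :
    Lv F.toPre (smulH F.toPre 0 _ f x) := by
  rw [smulH_eq]; exact hx.mul (Cb_smul hf (Cb_const _))

/-- the base field -/
theorem fi_base (hA : Ok F A) {f f' : M → ℝ} (h : Sep F.toPre f f') {p : M → En κ} (hp : F.Cb p) :
    FI F (wO F A (xw f f') ∘L mO F.toPre p)
      (fld F.toPre fun u z => f z • F.res A (fun y => f' y • p y (u y)) z) := by
  obtain ⟨α, hα⟩ := exists_FI (S := wO F A (xw f f') ∘L mO F.toPre p) hA.sup fun k => h.lv hA _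
  rw [fld_eq hα (T := fun u z => f z • F.res A (fun y => f' y • p y (u y)) z) fun u =>
    ⟨(cb_sm h.1).continuous.smul (Mp86.sm_res _ _ _).continuous, ?_⟩]
  · exact hα
  · have h1 := ((Is.toH (F := F.toPre) (k := 0) u).mulH hp (Maps.triv p)).smulH h.2.1
    have h2 : Lv F.toPre (smulH F.toPre 0 _ f' (mO F.toPre p (F.toH 0 _ u))) :=
      ((lv_toH u).mul hp).fmul h.2.1
    exact (hA.res h2 (Wrd81.sm_smul (cb_sm h.2.1) ((cb_sm hp).clm_apply u.2.1)) h1).2.2.smulH h.1

end Crest.Agent.X212.Cyc79
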