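import Crest.Agent.X212.Mp86.Wt
import Crest.Agent.X212.Sob92.Fun
import Crest.Agent.X212.Cht98.Cov
import Crest.Agent.X212.Cyc79.Cf
import Crest.Agent.X212.Dgr80.Rs
import Crest.Agent.X212.Std94.Smo
import Crest.Agent.X212.Eqv71.Res

-- ▼ part X212/Cyc79/Sup
section

/-!
# Row 212, CYC (helper79): weights on tame manifolds; weighted local boundedness
-/

set_option autoImplicit false
set_option linter.unusedSectionVars false
noncomputable section
open scoped Manifold ContDiff Topology InnerProductSpace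
open MeasureTheory Set Function Filter

namespace Crest.Agent.X212.Cyc79
open An Mp86
open Wz78 (lap)

variable {E : Type} [NormedAddCommGroup E] [NormedSpace ℝ E] [FiniteDimensional ℝ E]
  [MeasurableSpace E] [BorelSpace E]
  {HM : Type} [TopologicalSpace HM] {I : ModelWithCorners ℝ E HM} [I.Boundaryless]
  {M : Type} [TopologicalSpace M] [ChartedSpace HM M] [IsManifold I ∞ M]
  [MeasurableSpace M] [T2Space M] [BorelSpace M] [SecondCountableTopology M]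
  {ι : Type} [Fintype ι] {V : Type} [NormedAddCommGroup V] [InnerProductSpace ℝ V]
  {F : Fr I M ι} {A : ι → M → V →L[ℝ] V} {ψ ψ' U W φ ζ : M → ℝ} {g g' l l' N S β : ℝ}
  {s v : M → V}

/-- logarithms of weights -/
structure Lw (F : Fr I M ι) (g l : ℝ) (ψ : M → ℝ) : Prop where
  sm : Sm I ψ
  gr : ∀ x, ∑ a, F.D a ψ x ^ 2 ≤ g
  lop : ∀ x, -l ≤ Lop I F.e F.dv ψ x

theorem md1 {N : Type} [NormedAddCommGroup N] [NormedSpace ℝ N] {f : M → N} (h : Sm I f) (x : M) :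
    MD I f x := (cm1 h x).md le_rfl

theorem D_cmp {h : ℝ → ℝ} {h' : ℝ} {x : M} (hψ : Sm I ψ) (hh : HasDerivAt h h' (ψ x)) (a : ι) :
    F.D a (fun y => h (ψ y)) x = h' * F.D a ψ x := by
  have := dv_comp (v := F.e a) hh.hasFDerivAt (md1 hψ x)
  simp only [ContinuousLinearMap.toSpanSingleton_apply, smul_eq_mul] at this
  exact this.trans (mul_comm _ _)

theorem sum_cmp {h : ℝ → ℝ} {h' : ℝ} {x : M} (hψ : Sm I ψ) (hh : HasDerivAt h h' (ψ x)) :
    ∑ a, F.D a (fun y => h (ψ y)) x ^ 2 = h' ^ 2 * ∑ a, F.D a ψ x ^ 2 := by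
  simp only [D_cmp hψ hh, mul_pow, Finset.mul_sum]

theorem gr_nn (F : Fr I M ι) (ψ : M → ℝ) (x : M) : 0 ≤ ∑ a, F.D a ψ x ^ 2 :=
  Finset.sum_nonneg fun _ _ => sq_nonneg _

theorem gr_nn' (F : Fr I M ι) (ψ : M → ℝ) (x : M) : 0 ≤ ∑ a, Sob92.dv I (F.e a) ψ x ^ 2 :=
  gr_nn F ψ x

theorem Lw.add (h : Lw F g l ψ) (k : Lw F g' l' ψ') :
    Lw F (2 * g + 2 * g') (l + l') fun x => ψ x + ψ' x := by
  refine ⟨h.sm.add k.sm, fun x => ?_, fun x => ?_⟩
  · have : ∑ a, F.D a (fun x => ψ x + ψ' x) x ^ 2 ≤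
        ∑ a, (2 * F.D a ψ x ^ 2 + 2 * F.D a ψ' x ^ 2) := Finset.sum_le_sum fun a _ => by
      rw [show F.D a (fun x => ψ x + ψ' x) x = F.D a ψ x + F.D a ψ' x from
        Sob92.dv_add (md1 h.sm x) (md1 k.sm x)]
      nlinarith [sq_nonneg (F.D a ψ x - F.D a ψ' x)]
    rw [Finset.sum_add_distrib, ← Finset.mul_sum, ← Finset.mul_sum] at this
    linarith [h.gr x, k.gr x]
  · rw [Lop_add (vf F.toPre x) (cm2 h.sm x) (cm2 k.sm x)]; linarith [h.lop x, k.lop x]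

theorem Lw.mul (h : Lw F g l ψ) {t : ℝ} (ht : 0 ≤ t) : Lw F (t ^ 2 * g) (t * l) fun x => t * ψ x :=
  ⟨contMDiff_const.mul h.sm, fun x => by
    rw [sum_cmp (h := fun r => t * r) h.sm (by simpa using (hasDerivAt_id (ψ x)).const_mul t)]
    exact mul_le_mul_of_nonneg_left (h.gr x) (sq_nonneg _), fun x => by
    rw [Lop_mul t (vf F.toPre x) (cm2 h.sm x)]; nlinarith [h.lop x]⟩

theorem Lw.mono (h : Lw F g l ψ) (h1 : g ≤ g') (h2 : l ≤ l') : Lw F g' l' ψ :=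
  ⟨h.sm, fun x => (h.gr x).trans h1, fun x => by linarith [h.lop x]⟩

theorem Lw.wt (h : Lw F (1 / 16) (1 / 4) ψ) (hl : Tendsto ψ (cocompact M) atBot) :
    Wt F fun x => Real.exp (ψ x) := by
  refine ⟨Real.contDiff_exp.contMDiff.comp h.sm, fun x => Real.exp_pos _,
    Real.tendsto_exp_atBot.comp hl, fun x => ?_, fun x => ?_⟩
  · rw [sum_cmp h.sm (Real.hasDerivAt_exp _)]; nlinarith [h.gr x, sq_nonneg (Real.exp (ψ x))]
  · rw [Lop_comp (vf F.toPre x) (cm2 h.sm x) (.of_forall Real.hasDerivAt_exp)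
      (Real.hasDerivAt_exp _)]
    nlinarith [h.lop x, Real.exp_pos (ψ x), mul_nonneg (Real.exp_pos (ψ x)).le (gr_nn' F ψ x)]

/-- a proper function with bounded derivatives -/
theorem exists_lw {C : ℕ → ℝ} (h : F.Tame C) :
    ∃ ψ g l, 0 ≤ g ∧ 0 ≤ l ∧ Lw F g l ψ ∧ Tendsto ψ (cocompact M) atBot := by
  classical
  have := Sob92.lcs (I := I) (M := M)
  have := Sob92.scs (I := I) (M := M)
  let K := CompactExhaustion.choice M
  have step : ∀ (n : ℕ) (T : Set M), IsCompact T → ∃ χ : M → ℝ, F.CBs χ C ∧ HasCompactSupport χ ∧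
      (∀ x, 0 ≤ χ x ∧ χ x ≤ 1) ∧ ∀ x ∈ T ∪ K n, ∀ᶠ y in 𝓝 x, χ y = 1 := fun n T hT => by
    obtain ⟨T', h1, h2⟩ := exists_compact_superset (hT.union (K.isCompact n))
    obtain ⟨χ, a, b, c, d⟩ := h.exh T' h1
    exact ⟨χ, a, b, c, fun x hx => eventually_of_mem (mem_interior_iff_mem_nhds.1 (h2 hx)) d⟩
  choose nx a1 a2 a3 a4 using step
  let T : ℕ → {T : Set M // IsCompact T} := fun n => Nat.rec ⟨∅, isCompact_empty⟩
    (fun n T => ⟨tsupport (nx n T.1 T.2), a2 n T.1 T.2⟩) n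
  let χ : ℕ → M → ℝ := fun n => nx n (T n).1 (T n).2
  have b1 : ∀ n, ∀ x ∈ tsupport (χ n), ∀ᶠ y in 𝓝 x, χ (n + 1) y = 1 := fun n x hx =>
    a4 (n + 1) _ _ x (.inl hx)
  have b2 : ∀ {n x}, χ n x = 1 → x ∈ tsupport (χ n) := fun h =>
    subset_tsupport _ (by rw [mem_support, h]; exact one_ne_zero)
  have b3 : Monotone fun n => tsupport (χ n) :=
    monotone_nat_of_le_succ fun n x hx => b2 (b1 n x hx).self_of_nhds
  have ex : ∀ x, ∃ n, x ∈ tsupport (χ n) := fun x =>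
    let ⟨n, hn⟩ := K.exists_mem x; ⟨n, b2 (a4 n _ _ x (.inr hn)).self_of_nhds⟩
  let ψ : M → ℝ := fun x => χ (Nat.find (ex x)) x - Nat.find (ex x)
  have loc : ∀ x, ψ =ᶠ[𝓝 x] fun y => χ (Nat.find (ex x)) y - Nat.find (ex x) := fun x => by
    have c1 : ∀ᶠ y in 𝓝 x, ∀ n ∈ Finset.range (Nat.find (ex x)), y ∉ tsupport (χ n) :=
      (eventually_all_finset _).2 fun n hn => (isClosed_tsupport _).isOpen_compl.mem_nhds
        (Nat.find_min (ex x) (Finset.mem_range.1 hn))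
    filter_upwards [c1, b1 _ x (Nat.find_spec (ex x))] with y h1 h2
    have d1 : Nat.find (ex x) ≤ Nat.find (ex y) :=
      not_lt.1 fun e => h1 _ (Finset.mem_range.2 e) (Nat.find_spec (ex y))
    rcases d1.eq_or_lt with e | e
    · simp only [ψ, e]
    · have d2 : Nat.find (ex y) = Nat.find (ex x) + 1 := le_antisymm (Nat.find_min' _ (b2 h2)) e
      simp only [ψ, d2, h2, image_eq_zero_of_notMem_tsupport (Nat.find_min (ex y) e)]
      push_cast; ring
  have sχ : ∀ n, Sm I (χ n) := fun n => (a1 n _ _).1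
  refine ⟨ψ, Fintype.card ι * C 1 ^ 2, |Fintype.card ι * (C 2 + C 0 * C 2)|, by positivity,
    abs_nonneg _, ⟨fun x => ((sχ _ x).sub contMDiffAt_const).congr_of_eventuallyEq (loc x),
      fun x => ?_, fun x => ?_⟩, tendsto_atBot.2 fun b => ?_⟩
  · refine (Finset.sum_le_card_nsmul _ _ _ fun a _ => ?_).trans
      (by rw [nsmul_eq_mul, Finset.card_univ])
    rw [show F.D a ψ x = F.D a (χ (Nat.find (ex x))) x from (dv_congr (loc x)).trans
      ((D_cmp (h := fun r => r - _) (sχ _) ((hasDerivAt_id _).sub_const _) a).trans (one_mul _))]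
    exact sq_le_sq' (abs_le.1 ((a1 _ _ _).2 1 [a] le_rfl x)).1
      (abs_le.1 ((a1 _ _ _).2 1 [a] le_rfl x)).2
  · rw [Lop_congr (loc x), Lop_sub (vf F.toPre x) (cm2 (sχ _) x) contMDiffAt_const, Lop_const,
      sub_zero]
    exact (neg_le_neg (le_abs_self _)).trans (abs_le.1 (abs_Lop_le F h (a1 _ _ _) x)).1
  · obtain ⟨m, hm⟩ := exists_nat_ge (1 - b)
    refine mem_cocompact.2 ⟨_, a2 m (T m).1 (T m).2, fun x hx => ?_⟩
    have : (m : ℝ) ≤ Nat.find (ex x) :=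
      Nat.cast_le.2 (not_lt.1 fun e => hx (b3 e.le (Nat.find_spec (ex x))))
    have h2 : χ (Nat.find (ex x)) x ≤ 1 := (a3 _ _ _ x).2
    change χ _ x - _ ≤ b
    linarith

/-- admissible denominators -/
structure Wu (F : Fr I M ι) (U : M → ℝ) : Prop where
  sm : Sm I U
  pos : ∀ x, 0 < U x
  gr : ∀ x, 64 * ∑ a, F.D a U x ^ 2 ≤ U x ^ 2
  lop : ∀ x, 8 * Lop I F.e F.dv U x ≤ U x

theorem wu_one : Wu F fun _ => 1 :=
  ⟨contMDiff_const, fun _ => one_pos, fun x => by simp [Pre.D, Sob92.dv_const],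
    fun x => by rw [Lop_const]; norm_num⟩

theorem Wu.add (h : Wu F U) {η : ℝ} (hη : 0 ≤ η) : Wu F fun x => U x + η := by
  refine ⟨h.sm.add contMDiff_const, fun x => by linarith [h.pos x], fun x => ?_, fun x => ?_⟩
  · rw [sum_cmp (h := fun r => r + η) h.sm ((hasDerivAt_id _).add_const η)]
    nlinarith [h.gr x, h.pos x]
  · rw [Lop_add (vf F.toPre x) (cm2 h.sm x) contMDiffAt_const, Lop_const]; linarith [h.lop x]

theorem Wu.lw (h : Wu F U) : Lw F (1 / 64) (1 / 8) fun x => -Real.log (U x) := by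
  have d : ∀ t, 0 < t → HasDerivAt (fun r => -Real.log r) (-t⁻¹) t := fun t ht =>
    (Real.hasDerivAt_log ht.ne').neg
  refine ⟨fun x => ((Real.contDiffAt_log.2 (h.pos x).ne').comp_contMDiffAt (h.sm x)).neg,
    fun x => ?_, fun x => ?_⟩
  · have := h.pos x
    rw [sum_cmp h.sm (d _ this), neg_sq, inv_pow, inv_mul_le_iff₀ (by positivity)]
    linarith [h.gr x]
  · have := h.pos x
    rw [Lop_comp (g' := fun t => -t⁻¹) (vf F.toPre x) (cm2 h.sm x)
      ((lt_mem_nhds this).mono d) (hasDerivAt_inv this.ne').neg, neg_neg]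
    have h1 : (U x)⁻¹ * Lop I F.e F.dv U x ≤ 1 / 8 := by
      rw [inv_mul_le_iff₀ this]; linarith [h.lop x]
    linarith [mul_nonneg (show 0 ≤ (U x ^ 2)⁻¹ by positivity) (gr_nn' F U x)]

/-- `exp ψ` for a function with small derivatives -/
theorem wu_exp (h : Sm I ψ) (h1 : ∀ x, ∑ a, F.D a ψ x ^ 2 ≤ 1 / 64)
    (h2 : ∀ x, Lop I F.e F.dv ψ x ≤ 1 / 16) : Wu F fun x => Real.exp (ψ x) := by
  refine ⟨Real.contDiff_exp.contMDiff.comp h, fun x => Real.exp_pos _, fun x => ?_, fun x => ?_⟩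
  · rw [sum_cmp h (Real.hasDerivAt_exp _)]; nlinarith [h1 x, sq_nonneg (Real.exp (ψ x))]
  · rw [Lop_comp (vf F.toPre x) (cm2 h x) (.of_forall Real.hasDerivAt_exp) (Real.hasDerivAt_exp _)]
    have := h1 x
    simp only [Pre.D] at this
    nlinarith [h2 x, Real.exp_pos (ψ x)]

/-- functions of size `N` in `C²` -/
structure Cu (F : Fr I M ι) (N : ℝ) (φ : M → ℝ) : Prop where
  sm : Sm I φ
  gr : ∀ x, ∑ a, F.D a φ x ^ 2 ≤ N
  lop : ∀ x, |Lop I F.e F.dv φ x| ≤ N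

theorem Cu.mono (h : Cu F N φ) {N' : ℝ} (k : N ≤ N') : Cu F N' φ :=
  ⟨h.sm, fun x => (h.gr x).trans k, fun x => (h.lop x).trans k⟩

theorem cu_of_cbs {C D : ℕ → ℝ} (h : F.Tame C) (hφ : F.CBs φ D) :
    Cu F (Fintype.card ι * (D 2 ^ 2 + (1 + |C 0|) * |D 2|)) φ := by
  have h2 : ∀ a y, |F.D a φ y| ≤ |D 2| := fun a y => (hφ.2 2 [a] one_le_two y).trans (le_abs_self _)
  refine ⟨hφ.1, fun x => ?_, fun x => (Finset.abs_sum_le_sum_abs _ _).trans ?_⟩ <;>
    refine (Finset.sum_le_card_nsmul _ _ _ fun a _ => ?_).trans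
      (by rw [nsmul_eq_mul, Finset.card_univ])
  · exact le_add_of_le_of_nonneg (sq_le_sq.2 (h2 a x)) (by positivity)
  · have h1 : |F.D a (F.D a φ) x| ≤ |D 2| := (hφ.2 2 [a, a] le_rfl x).trans (le_abs_self _)
    have h3 : |F.dv a x| ≤ |C 0| := ((h.dv a).2 0 [] le_rfl x).trans (le_abs_self _)
    refine (abs_add_le (F.D a (F.D a φ) x) (F.dv a x * F.D a φ x)).trans ?_
    rw [abs_mul]
    nlinarith [mul_le_mul h3 (h2 a x) (abs_nonneg _) (abs_nonneg _), sq_nonneg (D 2)]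

theorem exists_st : ∃ m, 1 ≤ m ∧ ∀ t, |deriv Real.smoothTransition t| ≤ m ∧
    |deriv (deriv Real.smoothTransition) t| ≤ m := by
  obtain ⟨C, hC⟩ := Cht98.deriv_bounds Real.smoothTransition.contDiff Cht98.hcs_deriv_st (B := 1)
    fun t => by
      rw [Real.norm_eq_abs, abs_of_nonneg (Real.smoothTransition.nonneg t)]
      exact Real.smoothTransition.le_one t
  refine ⟨max 1 (C 2), le_max_left _ _, fun t => ⟨le_max_of_le_right ?_, le_max_of_le_right ?_⟩⟩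
  · simpa using hC 2 1 one_le_two t
  · simpa [iteratedDeriv_succ] using hC 2 2 le_rfl t

/-- the universal constant of the cut-off functions -/
def mS : ℝ := exists_st.choose

theorem one_le_mS : 1 ≤ mS := exists_st.choose_spec.1

/-- the cut-off function `0` for `φ ≤ s`, `1` for `φ ≥ s + 1/k` -/
def cf (k s : ℝ) (φ : M → ℝ) (x : M) : ℝ := Real.smoothTransition (k * (φ x - s))

theorem cf_zero {k s : ℝ} (hk : 0 ≤ k) {x : M} (h : φ x ≤ s) : cf k s φ x = 0 :=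
  Real.smoothTransition.zero_of_nonpos (mul_nonpos_of_nonneg_of_nonpos hk (by linarith))

theorem cf_one {k s : ℝ} {x : M} (h : 1 ≤ k * (φ x - s)) : cf k s φ x = 1 :=
  Real.smoothTransition.one_of_one_le h

theorem cf_abs (k s : ℝ) (x : M) : |cf k s φ x| ≤ 1 := by
  rw [cf, abs_of_nonneg (Real.smoothTransition.nonneg _)]; exact Real.smoothTransition.le_one _

theorem Cu.cf (h : Cu F N φ) {k : ℝ} (hk : 1 ≤ k) (s : ℝ) : Cu F (2 * (mS * k) ^ 2 * N) (cf k s φ) := by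
  have c := Real.smoothTransition.contDiff (n := (⊤ : ℕ∞))
  have c1 : Differentiable ℝ Real.smoothTransition := c.differentiable (by simp)
  have c2 : Differentiable ℝ (deriv Real.smoothTransition) :=
    (contDiff_infty_iff_deriv.1 c).2.differentiable (by simp)
  have a : ∀ t, HasDerivAt (fun t => k * (t - s)) k t := fun t => by
    simpa using ((hasDerivAt_id t).sub_const s).const_mul k
  have d1 : ∀ t, HasDerivAt (fun t => Real.smoothTransition (k * (t - s)))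
      (deriv Real.smoothTransition (k * (t - s)) * k) t := fun t => (c1 _).hasDerivAt.comp t (a t)
  have d2 : ∀ t, HasDerivAt (fun t => deriv Real.smoothTransition (k * (t - s)) * k)
      (deriv (deriv Real.smoothTransition) (k * (t - s)) * k * k) t := fun t =>
    ((c2 _).hasDerivAt.comp t (a t)).mul_const k
  have m1 := one_le_mS
  have b := fun t => exists_st.choose_spec.2 t
  have mk : 1 ≤ mS * k := one_le_mul_of_one_le_of_one_le m1 hk
  refine ⟨(c.comp (contDiff_const.mul (contDiff_id.sub contDiff_const))).contMDiff.comp h.sm,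
    fun x => ?_, fun x => ?_⟩
  · have N0 := (gr_nn F φ x).trans (h.gr x)
    rw [show Cyc79.cf k s φ = fun y => (fun t => Real.smoothTransition (k * (t - s))) (φ y) from rfl,
      sum_cmp h.sm (d1 _)]
    have : (deriv Real.smoothTransition (k * (φ x - s)) * k) ^ 2 ≤ (mS * k) ^ 2 := by
      rw [mul_pow, mul_pow]
      exact mul_le_mul_of_nonneg_right (sq_le_sq' (abs_le.1 (b _).1).1 (abs_le.1 (b _).1).2)
        (sq_nonneg _)
    nlinarith [mul_le_mul this (h.gr x) (gr_nn F φ x) (sq_nonneg _), sq_nonneg (mS * k)]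
  · have N0 := (gr_nn F φ x).trans (h.gr x)
    rw [show Cyc79.cf k s φ = fun y => (fun t => Real.smoothTransition (k * (t - s))) (φ y) from rfl,
      Lop_comp (vf F.toPre x) (cm2 h.sm x) (.of_forall d1) (d2 _)]
    refine (abs_add_le _ _).trans ?_
    simp only [abs_mul, abs_of_nonneg (show 0 ≤ k by linarith)]
    have e1 : |deriv (deriv Real.smoothTransition) (k * (φ x - s))| * k * k *
        |∑ a, Sob92.dv I (F.e a) φ x ^ 2| ≤ mS * k * k * N := by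
      rw [abs_of_nonneg (gr_nn' F φ x)]
      gcongr
      exacts [(b _).2, h.gr x]
    have e2 : |deriv Real.smoothTransition (k * (φ x - s))| * k * |Lop I F.e F.dv φ x| ≤
        mS * k * N := by
      gcongr
      exacts [(b _).1, h.lop x]
    have e3 : mS * k * k ≤ (mS * k) ^ 2 := by nlinarith [mul_le_mul_of_nonneg_right m1 (show 0 ≤ k by linarith)]
    have e4 : mS * k ≤ (mS * k) ^ 2 := by nlinarith
    nlinarith [mul_le_mul_of_nonneg_right e3 N0, mul_le_mul_of_nonneg_right e4 N0]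

/-- `ζ² |v|²` is a subsolution -/
theorem sub_cut (hA : Mc I A) (hv : Sm I v) (hζ : Cu F N ζ) (h1 : ∀ x, |ζ x| ≤ 1) {x : M} {σ : ℝ}
    (h0 : 0 ≤ σ) (e : ζ x ≠ 0 → v x + lap I F.e F.dv A v x = 0 ∧ 10 * N * ‖v x‖ ^ 2 ≤ σ) :
    ζ x * ζ x * ‖v x‖ ^ 2 - σ ≤ Lop I F.e F.dv (fun y => ζ y * ζ y * ‖v y‖ ^ 2) x := by
  have z2 := cm2 hζ.sm x
  have hD : ∀ a, Sob92.dv I (F.e a) (fun y => ζ y * ζ y) x = 2 * ζ x * F.D a ζ x := fun a => by
    rw [Mp86.dv_mul (md1 hζ.sm x) (md1 hζ.sm x)]; simp only [Pre.D]; ring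
  rw [Lop_mul_fun (f := fun y => ζ y * ζ y) (vf F.toPre x) (z2.mul z2) (cm_normSq (cm2 hv x)),
    Lop_mul_fun (vf F.toPre x) z2 z2, Lop_normSq (vf F.toPre x) (hA.mc x).sm (hA.mc x).sk (cm2 hv x)]
  simp only [hD]
  simp only [mul_assoc, ← Finset.mul_sum, ← sq (Sob92.dv _ _ _ _)]
  have g0 := gr_nn F ζ x
  simp only [Pre.D] at g0
  by_cases hz : ζ x = 0
  · simp only [hz]; nlinarith [mul_nonneg g0 (sq_nonneg ‖v x‖)]
  obtain ⟨e1, e2⟩ := e hz
  rw [LA_eq_lap, ← eq_neg_of_add_eq_zero_left e1, real_inner_self_eq_norm_sq]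
  have k1 := sum_dv_normSq_le (e := F.e) (fun a => hA.sk a x) (md1 hv x)
  have k2 := Finset.sum_mul_sq_le_sq_mul_sq Finset.univ (fun a => F.D a ζ x)
    fun a => Sob92.dv I (F.e a) (fun y => ‖v y‖ ^ 2) x
  have G0 : 0 ≤ gr2 I F.e A v x := gr2_nonneg
  have N0 := (gr_nn F ζ x).trans (hζ.gr x)
  have k3 := k2.trans (mul_le_mul (hζ.gr x) k1 (Finset.sum_nonneg fun _ _ => sq_nonneg _) N0)
  have k4 : -N ≤ ζ x * Lop I F.e F.dv ζ x := (abs_le.1 (by
    rw [abs_mul]; nlinarith [h1 x, hζ.lop x, abs_nonneg (ζ x), abs_nonneg (Lop I F.e F.dv ζ x)])).1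
  change _ ≤ _ + ζ x * (ζ x * (_ + 2 * gr2 I F.e A v x)) + _
  set X := ∑ a, F.D a ζ x * Sob92.dv I (F.e a) (fun y => ‖v y‖ ^ 2) x
  have k5 : -(2 * (ζ x ^ 2 * gr2 I F.e A v x) + 8 * (N * ‖v x‖ ^ 2)) ≤ 4 * (ζ x * X) := by
    refine (abs_le_of_sq_le_sq' ?_ (by positivity)).1
    nlinarith [mul_le_mul_of_nonneg_left k3 (sq_nonneg (ζ x)),
      sq_nonneg (ζ x ^ 2 * gr2 I F.e A v x - 4 * (N * ‖v x‖ ^ 2))]
  nlinarith [mul_le_mul_of_nonneg_right k4 (sq_nonneg ‖v x‖), mul_nonneg g0 (sq_nonneg ‖v x‖),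
    mul_nonneg (sq_nonneg (ζ x)) (sq_nonneg ‖v x‖)]

/-- `L² → L⁴` for nonnegative subsolutions -/
theorem eng_l4 {w σ : M → ℝ} (h : Eng F w σ) (h0 : ∀ x, 0 ≤ w x) (hS : L4 F.toPre S) (hS0 : 0 ≤ S)
    (hβ0 : 0 ≤ β) (hi : Integrable (fun x => σ x ^ 2) F.μ) (hβ : ∫ x, σ x ^ 2 ∂F.μ ≤ β ^ 2) :
    Integrable (fun x => w x ^ 4) F.μ ∧ ∫ x, w x ^ 4 ∂F.μ ≤ (S * β ^ 2) ^ 2 := by
  have wc := h.sm.continuous
  let δ : ℕ → ℝ := fun n => 1 / (n + 1)
  have δ0 : ∀ n, 0 < δ n := fun n => Nat.one_div_pos_of_nat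
  have fc : ∀ n, Continuous fun x => max (w x - 2 * δ n) 0 ^ 4 := fun n => by fun_prop
  have key : ∀ n, Integrable (fun x => max (w x - 2 * δ n) 0 ^ 4) F.μ ∧
      ∫ x, max (w x - 2 * δ n) 0 ^ 4 ∂F.μ ≤ (S * β ^ 2) ^ 2 := fun n => by
    obtain ⟨v, a1, a2, a3, -, a5⟩ := h.l4_le hS hS0 hβ0 hi hβ (δ0 n) (δ0 n)
    have i4 : Integrable (fun x => v x ^ 4) F.μ := integ_pow a1 a2 (by norm_num)
    have le : ∀ x, max (w x - 2 * δ n) 0 ^ 4 ≤ v x ^ 4 := fun x => by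
      rcases le_total (w x - 2 * δ n) 0 with h1 | h1
      · rw [max_eq_right h1]; simp; positivity
      · rw [max_eq_left h1]
        exact pow_le_pow_left₀ h1 (by linarith [a3 x]) 4
    have i5 := i4.mono' (fc n).aestronglyMeasurable (.of_forall fun x => by
      rw [Real.norm_of_nonneg (by positivity)]; exact le x)
    exact ⟨i5, (integral_mono i5 i4 le).trans a5⟩
  refine fatou (f := fun n x => max (w x - 2 * δ n) 0 ^ 4)
    (by fun_prop : Continuous fun x => w x ^ 4).measurable (fun x => by positivity)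
    (fun n => (fc n).measurable) (fun n => (key n).1) (fun n x => by positivity)
    (fun n => (key n).2) fun x => ?_
  have := (((tendsto_one_div_add_atTop_nhds_zero_nat (𝕜 := ℝ)).const_mul 2).const_sub
    (w x)).max (tendsto_const_nhds (x := (0 : ℝ))) |>.pow 4
  rwa [mul_zero, sub_zero, max_eq_left (h0 x)] at this

/-- the constant of the local bound -/
def kL (S N : ℝ) : ℝ := (3 + 8 * S ^ 2) * (20 * N * √S * (20 * N * (S * 4)))

theorem sup_wt (hl : Lw F (1 / 16) (1 / 4) ψ) (hψ : Tendsto ψ (cocompact M) atBot) (hA : Mc I A)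
    (hS : L4 F.toPre S) (hS0 : 0 < S) {ζ' : M → ℝ} (hζ : Cu F N ζ) (hζ' : Cu F N ζ') (hN : 0 < N)
    (h1 : ∀ x, |ζ x| ≤ 1) (h1' : ∀ x, |ζ' x| ≤ 1) (e1 : ∀ x, ζ x ≠ 0 → s x = 0)
    (e2 : ∀ x, ζ' x ≠ 0 → ζ x = 1) (hβ0 : 0 < β)
    (hi : Integrable (fun x => Real.exp (ψ x) * ‖s x‖ ^ 2) F.μ)
    (hβ : ∫ x, Real.exp (ψ x) * ‖s x‖ ^ 2 ∂F.μ ≤ β) (x : M) :
    Real.exp (ψ x) * (ζ' x * ζ' x * ‖F.res A s x‖ ^ 2) ≤ kL S N * β := by
  have := Sob92.openPos F.toPre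
  have hW := hl.wt hψ
  have hW' := ((hl.mul (t := 1 / 2) (by norm_num)).mono (by norm_num) (by norm_num)).wt
    (hψ.const_mul_atBot (by norm_num))
  have ee : ∀ x, Real.exp (1 / 2 * ψ x) ^ 2 = Real.exp (ψ x) := fun x => by
    rw [← Real.exp_nat_mul]; congr 1; push_cast; ring
  obtain ⟨i1, l1⟩ := hW'.l4_le (s := s) (β := √β) hA hS hS0.le (Real.sqrt_nonneg _)
    (by simpa only [mul_pow, ee] using hi)
    (by simpa only [mul_pow, ee, Real.sq_sqrt hβ0.le] using hβ)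
  obtain ⟨t, ht, ht'⟩ := res_rhs F A s
  set v := F.res A s
  obtain ⟨C, hC⟩ := ht.2.1
  have eq : ∀ x, ζ x ≠ 0 → v x + lap I F.e F.dv A v x = 0 := fun x hx => by
    rw [ht.2.2, ← norm_le_zero_iff, ← norm_zero (E := V), ← e1 x hx]; exact ht' x
  have sn : Sm I fun y => ‖v y‖ ^ 2 := fun y => cm_normSq (ht.1 y)
  have bd : ∀ {ζ : M → ℝ}, (∀ x, |ζ x| ≤ 1) → ∀ x, ζ x * ζ x * ‖v x‖ ^ 2 ≤ C ^ 2 := fun {ζ} h x => by
    have a1 : ζ x * ζ x ≤ 1 := by nlinarith [abs_le.1 (h x)]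
    nlinarith [pow_le_pow_left₀ (norm_nonneg _) (hC x) 2, sq_nonneg ‖v x‖]
  have nn : ∀ (ζ : M → ℝ) x, 0 ≤ ζ x * ζ x * ‖v x‖ ^ 2 := fun ζ x =>
    mul_nonneg (mul_self_nonneg _) (sq_nonneg _)
  have E1 := hW.en (f := fun x => ζ x * ζ x * ‖v x‖ ^ 2) (σ := fun x => 10 * N * ‖v x‖ ^ 2) ((hζ.sm.mul hζ.sm).mul sn) (nn ζ) (bd h1)
    (continuous_const.mul sn.continuous)
    fun x => sub_cut hA ht.1 hζ h1 (by positivity) fun hx => ⟨eq x hx, le_rfl⟩
  have r1 : ∀ x, (2 * (Real.exp (ψ x) * (10 * N * ‖v x‖ ^ 2))) ^ 2 =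
      (20 * N) ^ 2 * (Real.exp (1 / 2 * ψ x) * ‖v x‖) ^ 4 := fun x => by rw [← ee]; ring
  obtain ⟨i2, l2⟩ := eng_l4 (β := 20 * N * (S * 4 * β)) E1
    (fun x => mul_nonneg (Real.exp_pos _).le (nn ζ x)) hS hS0.le (by positivity)
    (by simpa only [r1] using i1.const_mul _) (by
      simp only [r1, integral_const_mul]
      rw [mul_pow (20 * N)]
      refine mul_le_mul_of_nonneg_left (l1.trans_eq ?_) (sq_nonneg _)
      rw [mul_pow 2, Real.sq_sqrt hβ0.le]; ring)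
  have E2 := hW.en (f := fun x => ζ' x * ζ' x * ‖v x‖ ^ 2) (σ := fun x => 10 * N * (ζ x * ζ x * ‖v x‖ ^ 2))
    ((hζ'.sm.mul hζ'.sm).mul sn) (nn ζ') (bd h1')
    (continuous_const.mul ((hζ.sm.mul hζ.sm).mul sn).continuous)
    fun x => sub_cut hA ht.1 hζ' h1' (mul_nonneg (by positivity) (nn ζ x)) fun hx =>
      ⟨eq x (by rw [e2 x hx]; exact one_ne_zero), by simp [e2 x hx]⟩
  have r2 : ∀ x, (2 * (Real.exp (ψ x) * (10 * N * (ζ x * ζ x * ‖v x‖ ^ 2)))) ^ 4 =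
      (20 * N) ^ 4 * (Real.exp (ψ x) * (ζ x * ζ x * ‖v x‖ ^ 2)) ^ 4 := fun x => by ring
  refine (E2.sup_le (β := 20 * N * √S * (20 * N * (S * 4 * β))) hS hS0 (by positivity)
    (by simpa only [r2] using i2.const_mul _) ?_ x).trans_eq (by rw [kL]; ring)
  simp only [r2, integral_const_mul]
  refine (mul_le_mul_of_nonneg_left l2 (by positivity)).trans_eq ?_
  rw [mul_pow (20 * N * √S), mul_pow (20 * N) (√S), show 4 = 2 * 2 from rfl, pow_mul (√S),
    Real.sq_sqrt hS0.le]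
  ring

theorem kL_nonneg (hS : 0 ≤ S) (hN : 0 ≤ N) : 0 ≤ kL S N := by unfold kL; positivity

/-- **weighted local boundedness**, uniformly in the connection -/
theorem sup_w {C : ℕ → ℝ} (hT : F.Tame C) (hA : Mc I A) (hU : Wu F U)
    (hS : L4 F.toPre S) (hS0 : 0 < S) {ζ' : M → ℝ} (hζ : Cu F N ζ) (hζ' : Cu F N ζ') (hN : 0 < N)
    (h1 : ∀ x, |ζ x| ≤ 1) (h1' : ∀ x, |ζ' x| ≤ 1) (e1 : ∀ x, ζ x ≠ 0 → s x = 0)
    (e2 : ∀ x, ζ' x ≠ 0 → ζ x = 1) (hs : Continuous s) (hc : HasCompactSupport s) (x : M) :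
    ‖ζ' x • F.res A s x‖ ^ 2 ≤ 6 * kL S N * U x * ∫ y, (U y)⁻¹ * ‖s y‖ ^ 2 ∂F.μ := by
  obtain ⟨ψ, g, l, g0, l0, hψ, hl⟩ := exists_lw hT
  obtain ⟨B, hB⟩ := (hc.isCompact.insert x).exists_bound_of_continuousOn
    hψ.sm.continuous.continuousOn
  have B0 : 0 ≤ B := (norm_nonneg _).trans (hB x (mem_insert _ _))
  have p := hU.pos x
  have k0 := kL_nonneg hS0.le hN.le
  set ε := (8 * (1 + g + l + B))⁻¹ with hε
  have ε0 : 0 < ε := by positivity
  have e0 : ε * (1 + g + l + B) = 1 / 8 := by rw [hε]; field_simp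
  have a1 : ε ≤ 1 / 8 := by nlinarith
  have a2 : ε * g ≤ 1 / 8 := by nlinarith
  have L := ((hψ.mul ε0.le).add (hU.add p.le).lw).mono (g' := 1 / 16) (l' := 1 / 4)
    (by nlinarith) (by nlinarith)
  have ex : ∀ y, Real.exp (ε * ψ y + -Real.log (U y + U x)) = Real.exp (ε * ψ y) * (U y + U x)⁻¹ :=
    fun y => by rw [Real.exp_add, Real.exp_neg, Real.exp_log (by linarith [hU.pos y])]
  have b1 : ∀ y ∈ insert x (tsupport s), 7 / 8 ≤ Real.exp (ε * ψ y) ∧ Real.exp (ε * ψ y) ≤ 8 / 7 :=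
    fun y hy => by
      have c1 := abs_le.1 (hB y hy)
      have c2 := Real.add_one_le_exp (ε * ψ y)
      have c3 := Real.add_one_le_exp (-(ε * ψ y))
      refine ⟨by nlinarith, ?_⟩
      have c4 : Real.exp (ε * ψ y) * Real.exp (-(ε * ψ y)) = 1 := by rw [← Real.exp_add]; simp
      have c5 : 7 / 8 ≤ Real.exp (-(ε * ψ y)) := by nlinarith
      nlinarith [mul_le_mul_of_nonneg_left c5 (Real.exp_pos (ε * ψ y)).le]
  have uc := hU.sm.continuous
  have ci : Continuous fun y => (U y)⁻¹ * ‖s y‖ ^ 2 :=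
    (uc.inv₀ fun y => (hU.pos y).ne').mul (hs.norm.pow 2)
  have hc2 : ∀ f : M → ℝ, HasCompactSupport fun y => f y * ‖s y‖ ^ 2 := fun f =>
    hc.mono fun y hy h => hy (by simp [h])
  have i0 := ci.integrable_of_hasCompactSupport (μ := F.μ) (hc2 _)
  have i1 := ((Real.continuous_exp.comp L.sm.continuous).mul
    (hs.norm.pow 2)).integrable_of_hasCompactSupport (μ := F.μ) (hc2 _)
  have J0 : 0 ≤ ∫ y, (U y)⁻¹ * ‖s y‖ ^ 2 ∂F.μ :=
    integral_nonneg fun y => mul_nonneg (inv_nonneg.2 (hU.pos y).le) (sq_nonneg _)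
  refine le_of_forall_pos_le_add fun δ hδ => ?_
  have key := sup_wt (β := 8 / 7 * ∫ y, (U y)⁻¹ * ‖s y‖ ^ 2 ∂F.μ + δ / (6 * (kL S N + 1) * U x))
    L (tendsto_atBot_add_right_of_ge' _ (-Real.log (U x)) (hl.const_mul_atBot ε0)
      (.of_forall fun y => neg_le_neg (Real.log_le_log p (by linarith [hU.pos y]))))
    hA hS hS0 hζ hζ' hN h1 h1' e1 e2 (by positivity) i1 (le_add_of_le_of_nonneg (by
      rw [← integral_const_mul]
      refine integral_mono i1 (i0.const_mul _) fun y => ?_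
      by_cases hy : y ∈ tsupport s
      · simp only [ex, ← mul_assoc]
        have := hU.pos y
        gcongr
        · exact (b1 y (.inr hy)).2
        · linarith
      · simp [image_eq_zero_of_notMem_tsupport hy]) (by positivity)) x
  rw [ex, mul_assoc, ← two_mul, mul_inv] at key
  rw [norm_smul, mul_pow, Real.norm_eq_abs, sq_abs, sq (ζ' x)]
  set Y := ζ' x * ζ' x * ‖F.res A s x‖ ^ 2
  have Y0 : 0 ≤ Y := mul_nonneg (mul_self_nonneg _) (sq_nonneg _)
  have f1 : 7 / 8 * (2⁻¹ * (U x)⁻¹ * Y) ≤ _ :=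
    (mul_le_mul_of_nonneg_right (b1 x (.inl rfl)).1 (by positivity)).trans key
  have f2 := mul_le_mul_of_nonneg_left f1 p.le
  have f3 : U x * (kL S N * (δ / (6 * (kL S N + 1) * U x))) ≤ δ / 6 := by
    rw [show U x * (kL S N * (δ / (6 * (kL S N + 1) * U x))) = δ / 6 * (kL S N / (kL S N + 1)) by
      field_simp]
    exact mul_le_of_le_one_right (by positivity) ((div_le_one (by positivity)).2 (by linarith))
  rw [show U x * (7 / 8 * (2⁻¹ * (U x)⁻¹ * Y)) = 7 / 16 * Y by field_simp; ring] at f2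
  nlinarith [mul_nonneg (mul_nonneg k0 p.le) J0]

end Crest.Agent.X212.Cyc79
end
end

-- ▼ part X212/Cyc79/Ub

/-!
# Row 212, CYC (helper79): sup bounds of the fields, uniformly in the connection
-/

set_option autoImplicit false
set_option linter.unusedSectionVars false
noncomputable section
open scoped Manifold ContDiff Topology InnerProductSpace
open MeasureTheory Set Function Filter

namespace Crest.Agent.X212.Cyc79
open An Sob92 Wz78 Dgr80
open Mp86 (Mc Bumps L4 Dom LaSz LLSz)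
open Wrd81 (wd)

section lin
variable {κ : Type} [Fintype κ] [DecidableEq κ] {K : Type} [NormedAddCommGroup K]
  [InnerProductSpace ℝ K]

theorem hasSum_ct {J : Type*} (b : HilbertBasis J ℝ K) (v : Fm κ K) :
    HasSum (fun n => ‖ct (b n) v‖ ^ 2) (‖v‖ ^ 2) := by
  simp only [PiLp.norm_sq_eq_of_L2, ct_apply, Real.norm_eq_abs, sq_abs]
  refine hasSum_sum fun i _ => ?_
  simpa only [real_inner_self_eq_norm_sq, real_inner_comm (b _), ← sq] using
    b.hasSum_inner_mul_inner (v i) (v i)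

theorem norm_amp [CompleteSpace K] (T : En κ) (v : Fm κ K) : ‖amp K T v‖ ≤ ‖T‖ * ‖v‖ := by
  obtain ⟨w, b, -⟩ := exists_hilbertBasis ℝ K
  refine le_of_sq_le_sq (le_trans ?_ (mul_pow _ _ 2).ge) (by positivity)
  refine hasSum_le (fun n => ?_) (hasSum_ct b _) ((hasSum_ct b v).mul_left _)
  rw [ct_amp, ← mul_pow]
  exact pow_le_pow_left₀ (norm_nonneg _) (T.le_opNorm _) 2

theorem norm_ct (h : K) (v : Fm κ K) : ‖ct h v‖ ≤ ‖h‖ * ‖v‖ := by
  refine le_of_sq_le_sq ?_ (by positivity)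
  rw [mul_pow, PiLp.norm_sq_eq_of_L2, PiLp.norm_sq_eq_of_L2 _ v, Finset.mul_sum]
  refine Finset.sum_le_sum fun i _ => ?_
  rw [← mul_pow]
  exact pow_le_pow_left₀ (norm_nonneg _) (abs_real_inner_le_norm _ _) 2

theorem cont_ct (v : Fm κ K) : Continuous fun h : K => ct h v :=
  (PiLp.continuous_toLp 2 _).comp (continuous_pi fun _ => continuous_id.inner continuous_const)

theorem norm_of_ct {p : En κ} (hp : ∀ v w, ⟪p v, w⟫_ℝ = ⟪v, p w⟫_ℝ) {v : Fm κ K} {c : ℝ}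
    (h1 : ∀ h, p (ct h v) = ct h v) (h2 : ∀ h, ‖ct h v‖ ^ 2 ≤ c * ‖h‖ ^ 2) (hc : 0 ≤ c) :
    ‖v‖ ^ 2 ≤ (∑ i, ‖p (EuclideanSpace.single i 1)‖ ^ 2) * c := by
  rw [PiLp.norm_sq_eq_of_L2, Finset.sum_mul]
  refine Finset.sum_le_sum fun i _ => ?_
  have e : ‖v i‖ ^ 2 = ⟪p (EuclideanSpace.single i 1), ct (v i) v⟫_ℝ := by
    rw [hp, h1, EuclideanSpace.inner_single_left]; simp
  have k := pow_le_pow_left₀ (sq_nonneg _) (e.trans_le (real_inner_le_norm _ _)) 2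
  rw [mul_pow] at k
  have k2 := k.trans (mul_le_mul_of_nonneg_left (h2 (v i)) (sq_nonneg _))
  rcases (sq_nonneg ‖v i‖).eq_or_lt with h0 | h0
  · rw [← h0]; positivity
  · exact le_of_mul_le_mul_right (by nlinarith) h0

theorem norm_hsL_sq (T : En κ) : ‖hsL T‖ ^ 2 = ∑ k, ‖T (EuclideanSpace.single k 1)‖ ^ 2 := by
  rw [← real_inner_self_eq_norm_sq, inner_hsL]
  simp only [real_inner_self_eq_norm_sq]

theorem norm_hsL_mul (ξ η : HS κ) : ‖hsL (opL ξ * opL η)‖ ≤ ‖ξ‖ * ‖η‖ := by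
  refine le_of_sq_le_sq ?_ (by positivity)
  have e := norm_hsL_sq (opL η)
  rw [hsL_opL] at e
  rw [mul_pow, e, norm_hsL_sq, Finset.mul_sum]
  refine Finset.sum_le_sum fun k _ => ?_
  rw [← mul_pow]
  exact pow_le_pow_left₀ (norm_nonneg _) (norm_opL_apply ξ (opL η (EuclideanSpace.single k 1))) 2

theorem norm_adR (ξ : HS κ) : ‖adR κ ξ‖ ≤ 2 * ‖ξ‖ :=
  ContinuousLinearMap.opNorm_le_bound _ (by positivity) fun η => by
    rw [adR_apply, Wz78.adc_apply, map_sub]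
    linarith [norm_sub_le (hsL (opL ξ * opL η)) (hsL (opL η * opL ξ)), norm_hsL_mul ξ η,
      norm_hsL_mul η ξ]

theorem sum_proj (S : Submodule ℝ (Eu κ)) :
    ∑ i, ‖S.starProjection (EuclideanSpace.single i 1)‖ ^ 2 = Module.finrank ℝ S := by
  have h := LinearMap.IsProj.trace (p := S) (f := (S.starProjection : Eu κ →ₗ[ℝ] Eu κ))
    ⟨S.starProjection_apply_mem, fun _ => Submodule.starProjection_eq_self_iff.2⟩
  rw [← h, ← trE_eq, trE_apply]
  refine Finset.sum_congr rfl fun i _ => ?_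
  rw [← real_inner_self_eq_norm_sq, Submodule.inner_starProjection_left_eq_right,
    Submodule.starProjection_eq_self_iff.2 (S.starProjection_apply_mem _),
    EuclideanSpace.inner_single_left]
  simp

end lin

variable {E : Type} [NormedAddCommGroup E] [NormedSpace ℝ E] [FiniteDimensional ℝ E]
  [MeasurableSpace E] [BorelSpace E]
  {HM : Type} [TopologicalSpace HM] {I : ModelWithCorners ℝ E HM} [I.Boundaryless]
  {M : Type} [TopologicalSpace M] [ChartedSpace HM M] [IsManifold I ∞ M]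
  [MeasurableSpace M] [T2Space M] [BorelSpace M] [SecondCountableTopology M]
  {ι : Type} [Fintype ι] {κ : Type} [Fintype κ] [DecidableEq κ]
  {F : Fr I M ι} {A : ι → M → En κ} {p : M → En κ} {f f' ζ ζ' U : M → ℝ} {S N : ℝ} {C : ℕ → ℝ}

variable (F A p) in
/-- a parallel projector of rank at most three for any metric connection -/
structure Pq : Prop where
  tame : ∃ C, F.Tame C
  mc : Mc I A
  sm : Sm I p
  sym : ∀ x v w, ⟪p x v, w⟫_ℝ = ⟪v, p x w⟫_ℝ
  idem : ∀ x, p x * p x = p x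
  par : ∀ a x, nabE I F.e A a p x = 0
  rk : ∀ x, ∑ i, ‖p x (EuclideanSpace.single i 1)‖ ^ 2 ≤ 3

theorem Pq.bmp (h : Pq F A p) : Bumps I F.e F.dv := Mp86.bumps_of_tame F h.tame.choose_spec

theorem Pq.norm_le (h : Pq F A p) (x : M) (v : Eu κ) : ‖p x v‖ ≤ ‖v‖ :=
  (Mp86.proj_le (h.sym x) (h.idem x) v).2.2

theorem Pq.mcA (h : Pq F A p) (K : Type) [NormedAddCommGroup K] [InnerProductSpace ℝ K]
    [CompleteSpace K] : Mc I (aA K A) := ⟨sm_aA h.mc.sm, fun a x => skew_amp (h.mc.sk a x)⟩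

theorem sq_toH {V : Type} [NormedAddCommGroup V] [InnerProductSpace ℝ V] (F : Pre I M ι)
    (u : Sec I (triv M V)) : ‖F.toH 0 _ u‖ ^ 2 = ∫ y, ‖u.1 y‖ ^ 2 ∂F.μ := by
  rw [← real_inner_self_eq_norm_sq, Pre.inner_toH]
  simp only [Pre.ip, real_inner_self_eq_norm_sq]

/-- weighted bound of the base field -/
theorem Pq.bs_le (h : Pq F A p) (hU : Wu F U) (hS : L4 F.toPre S) (hS0 : 0 < S) (hζ : Cu F N ζ)
    (hζ' : Cu F N ζ') (hN : 0 < N) (h1 : ∀ x, |ζ x| ≤ 1) (h1' : ∀ x, |ζ' x| ≤ 1)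
    (e1 : ∀ x, ζ x ≠ 0 → f' x = 0) (e2 : ∀ x, ζ' x ≠ 0 → ζ x = 1) (e3 : ∀ x, f x ≠ 0 → ζ' x = 1)
    (hf' : Continuous f') {m : ℝ} (hm : ∀ x, f' x ^ 2 ≤ m * U x) (z : M) :
    ‖bs F A p f f' z‖ ^ 2 ≤ 3 * (f z ^ 2 * (6 * kL S N * U z * m)) := by
  have m0 : 0 ≤ m := nonneg_of_mul_nonneg_left ((sq_nonneg _).trans (hm z)) (hU.pos z) |> fun h => h
  have k0 := kL_nonneg hS0.le hN.le
  have c0 : 0 ≤ f z ^ 2 * (6 * kL S N * U z * m) := by have := hU.pos z; positivity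
  rcases fld_cases F.toPre (fun u z => f z • F.res A (fun y => f' y • p y (u y)) z) with k | k
  swap
  · rw [bs, k.2]; simpa using c0
  refine (norm_of_ct (h.sym z) (fun g => ?_) (fun g => ?_) c0).trans
    (mul_le_mul_of_nonneg_right (h.rk z) c0)
  · refine H_eq (f := fun g => p z (ct g (bs F A p f f' z))) (g := fun g => ct g (bs F A p f f' z))
      ((p z).continuous.comp (cont_ct _)) (cont_ct _) (fun u => ?_) g
    simp only [bs, k.2 u z, map_smul]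
    rw [Mp86.res_fix h.bmp h.mc h.sm ⟨1, fun x => ContinuousLinearMap.opNorm_le_bound _ zero_le_one
      fun v => by simpa using h.norm_le x v⟩ (fun x a => ?_) fun x => ?_]
    · have := h.par a x
      rw [nabE, ← add_sub_assoc, sub_eq_zero] at this
      exact this
    · rw [map_smul, ← mul_apply_eq_comp, h.idem]
  · refine (F.dense_toH 0 _).induction_on g (isClosed_le ((cont_ct _).norm.pow 2) (by fun_prop))
      fun u => ?_
    simp only [bs, k.2 u z]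
    by_cases hz : f z = 0
    · simp [hz]
    have cs : Continuous fun y => f' y • p y (u.1 y) :=
      hf'.smul (h.sm.clm_apply u.2.1).continuous
    have hc : HasCompactSupport fun y => f' y • p y (u.1 y) :=
      u.2.2.1.mono fun y hy e => hy (by simp [e])
    have k1 := sup_w h.tame.choose_spec h.mc hU hS hS0 hζ hζ' hN h1 h1'
      (fun x hx => by simp [e1 x hx]) e2 cs hc z
    rw [e3 z hz, one_smul] at k1
    rw [norm_smul, mul_pow, Real.norm_eq_abs, sq_abs, mul_assoc, mul_assoc _ m, sq_toH,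
      ← integral_const_mul]
    have := hU.pos z
    refine mul_le_mul_of_nonneg_left (k1.trans (mul_le_mul_of_nonneg_left (integral_mono_of_nonneg
      (.of_forall fun y => mul_nonneg (inv_nonneg.2 (hU.pos y).le) (sq_nonneg _))
      (((u.2.1.continuous.norm.pow 2).integrable_of_hasCompactSupport
        (u.2.2.1.mono fun y hy e => hy (by simp [e]))).const_mul m) (.of_forall fun y => ?_))
      (by positivity))) (sq_nonneg _)
    beta_reduce
    rw [inv_mul_le_iff₀ (hU.pos y), norm_smul, mul_pow, Real.norm_eq_abs, sq_abs, ← mul_assoc,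
      mul_comm (U y)]
    exact mul_le_mul (hm y) (pow_le_pow_left₀ (norm_nonneg _) (h.norm_le y _) 2) (sq_nonneg _)
      ((sq_nonneg _).trans (hm y))

/-- quantitatively separated supports -/
structure SepN (F : Fr I M ι) (N : ℝ) (f f' : M → ℝ) : Prop where
  one : 1 ≤ N
  c : Continuous f
  c' : Continuous f'
  b : ∀ x, |f x| ≤ N
  b' : ∀ x, |f' x| ≤ N
  ex : ∃ φ, Cu F N φ ∧ (∀ x, f x ≠ 0 → 1 ≤ φ x) ∧ ∀ x, f' x ≠ 0 → φ x ≤ 0

theorem Cu.flip {φ : M → ℝ} (h : Cu F N φ) : Cu F N fun x => 1 - φ x :=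
  ⟨contMDiff_const.sub h.sm, fun x => by
    rw [sum_cmp (h := fun r => 1 - r) h.sm ((hasDerivAt_id _).const_sub 1)]; simpa using h.gr x,
    fun x => by
    rw [Mp86.Lop_sub (Mp86.vf F.toPre x) contMDiffAt_const (Mp86.cm2 h.sm x), Mp86.Lop_const,
      zero_sub, abs_neg]; exact h.lop x⟩

theorem SepN.symm (h : SepN F N f f') : SepN F N f' f :=
  let ⟨_, a, b, c⟩ := h.ex
  ⟨h.one, h.c', h.c, h.b', h.b, _, a.flip, fun x hx => by linarith [c x hx],
    fun x hx => by linarith [b x hx]⟩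

theorem SepN.mono (h : SepN F N f f') {N' : ℝ} (k : N ≤ N') : SepN F N' f f' :=
  let ⟨_, a, b⟩ := h.ex
  ⟨h.one.trans k, h.c, h.c', fun x => (h.b x).trans k, fun x => (h.b' x).trans k, _, a.mono k, b⟩

/-- the size is controlled by the constants of the three functions -/
theorem sepN_of_cbs (hF : F.Tame C) {φ : M → ℝ} {D : ℕ → ℝ} (hf : F.CBs f D) (hf' : F.CBs f' D)
    (hφ : F.CBs φ D) (h1 : ∀ x, f x ≠ 0 → 1 ≤ φ x) (h0 : ∀ x, f' x ≠ 0 → φ x ≤ 0) :
    SepN F (1 + |D 0| + Fintype.card ι * (D 2 ^ 2 + (1 + |C 0|) * |D 2|)) f f' := by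
  have p : 0 ≤ Fintype.card ι * (D 2 ^ 2 + (1 + |C 0|) * |D 2|) := by positivity
  have q := le_abs_self (D 0)
  have r := abs_nonneg (D 0)
  exact ⟨by linarith, hf.1.continuous, hf'.1.continuous,
    fun x => (hf.2 0 [] le_rfl x).trans (by linarith),
    fun x => (hf'.2 0 [] le_rfl x).trans (by linarith), φ, (cu_of_cbs hF hφ).mono (by linarith),
    h1, h0⟩

theorem Sep.sepN (hF : F.Tame C) (h : Sep F.toPre f f') : ∃ N, SepN F N f f' := by
  obtain ⟨⟨a, ha⟩, ⟨b, hb⟩, φ, ⟨c, hc⟩, h1, h0⟩ := h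
  have m : ∀ {g : M → ℝ} {a}, F.CBs g a → ∀ D : ℕ → ℝ, (∀ k, a k ≤ D k) → F.CBs g D :=
    fun h D e => ⟨h.1, fun k w hw x => (h.2 k w hw x).trans (e k)⟩
  exact ⟨_, sepN_of_cbs hF (D := fun k => max (a k) (max (b k) (c k))) (m ha _ fun _ => by simp)
    (m hb _ fun _ => by simp) (m hc _ fun _ => by simp) h1 h0⟩

/-- the bound of the base fields and of the letters -/
def kB (S N : ℝ) : ℝ := 2 + N + √(3 * (N ^ 2 * (6 * kL S (2 * (mS * 3) ^ 2 * N) * 1 * N ^ 2)))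

theorem le_kB (hN : 0 ≤ N) : 2 ≤ kB S N ∧ N ≤ kB S N := by
  have := Real.sqrt_nonneg (3 * (N ^ 2 * (6 * kL S (2 * (mS * 3) ^ 2 * N) * 1 * N ^ 2)))
  unfold kB; constructor <;> linarith

theorem Pq.bs_kB (h : Pq F A p) (hS : L4 F.toPre S) (hS0 : 0 < S) (hs : SepN F N f f') (z : M) :
    ‖bs F A p f f' z‖ ≤ kB S N := by
  obtain ⟨φ, a, b, c⟩ := hs.ex
  have N1 := hs.one
  have m1 := one_le_mS
  have k := h.bs_le (f := f) wu_one hS hS0 (a.cf (k := 3) (by norm_num) 0)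
    (a.cf (k := 3) (by norm_num) (1 / 3)) (by positivity) (cf_abs _ _) (cf_abs _ _)
    (fun x hx => by_contra fun e => hx (cf_zero (by norm_num) (c x e)))
    (fun x hx => cf_one (by
      have : ¬φ x ≤ 1 / 3 := fun e => hx (cf_zero (by norm_num) e)
      linarith [not_le.1 this]))
    (fun x hx => cf_one (by linarith [b x hx])) hs.c' (m := N ^ 2)
    (fun x => by rw [mul_one]; exact sq_le_sq' (abs_le.1 (hs.b' x)).1 (abs_le.1 (hs.b' x)).2) z
  have k0 := kL_nonneg (N := 2 * (mS * 3) ^ 2 * N) hS0.le (by positivity)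
  refine (Real.le_sqrt_of_sq_le (k.trans ?_)).trans (le_add_of_nonneg_left (by linarith))
  gcongr 3 * (?_ * _)
  exact sq_le_sq' (abs_le.1 (hs.b z)).1 (abs_le.1 (hs.b z)).2

/-! ### words -/

section words
variable {V U : Type} [NormedAddCommGroup V] [InnerProductSpace ℝ V] [CompleteSpace V]
  [NormedAddCommGroup U] [InnerProductSpace ℝ U] [CompleteSpace U] {A : ι → M → CL V V}
  {r : CL U (CL V V)} {K R ρ : ℝ} {s l : M → V} {w : List (SL M V)} {n : ℕ}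

/-- words of length `≤ n` in letters of size `K` -/
def WL (K : ℝ) (n : ℕ) (w : List (SL M V)) : Prop := w.length ≤ n ∧ ∀ t ∈ w, t.Le K

theorem WL.wd (h : WL K n w) (hB : Bumps I F.e F.dv) (hA : Mc I A) (hK : 1 ≤ K)
    (hs : ∀ x, ‖s x‖ ≤ R) (x : M) : ‖wd (sl F A) s w x‖ ≤ K ^ n * R :=
  (wd_le hB hA hK hs h.2 x).trans (mul_le_mul_of_nonneg_right (pow_le_pow_right₀ hK h.1)
    ((norm_nonneg _).trans (hs x)))

theorem WL.bk (h : WL K n w) (hB : Bumps I F.e F.dv) (hA : Mc I A) (hK : 1 ≤ K)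
    (hs : ∀ x, ‖s x‖ ≤ R) (x : M) : ‖bk F A w s x‖ ≤ K ^ n * R :=
  (bk_le hB hA hK h.2 hs x).trans (mul_le_mul_of_nonneg_right (pow_le_pow_right₀ hK h.1)
    ((norm_nonneg _).trans (hs x)))

theorem le_mul {f : M → ℝ} (h : ∀ x, |f x| ≤ K) : (laV V (.mul f)).Le K := fun x =>
  ContinuousLinearMap.opNorm_le_bound _ ((abs_nonneg _).trans (h x)) fun v =>
    (norm_smul (f x) v).trans_le (mul_le_mul_of_nonneg_right (h x) (norm_nonneg _))

theorem wl_xw (h : ∀ x, |f x| ≤ K) (h' : ∀ x, |f' x| ≤ K) (hn : 3 ≤ n) :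
    WL K n ((xw f f').map (laV V)) := ⟨by simpa [xw] using hn, fun t ht => by
  simp only [xw, List.map_cons, List.map_nil, List.mem_cons, List.not_mem_nil, or_false] at ht
  rcases ht with rfl | rfl | rfl
  exacts [le_mul h, trivial, le_mul h']⟩

theorem wl_sz {m : ℕ} {w : List (La M)} (h : LLSz m w) (hK : (m : ℝ) ≤ K) (hn : m ≤ n) :
    WL K n (w.map (laV V)) := ⟨by simpa using h.1.trans hn, fun t ht => by
  obtain ⟨t, h1, rfl⟩ := List.mem_map.1 ht
  cases t with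
  | mul f => exact le_mul fun x => (h.2 _ h1 x).trans hK
  | G => trivial⟩

theorem WL.append {w' : List (SL M V)} {m : ℕ} (h : WL K n w) (k : WL K m w') :
    WL K (n + m) (w ++ w') :=
  ⟨by simpa using add_le_add h.1 k.1, fun t ht => (List.mem_append.1 ht).elim (h.2 t) (k.2 t)⟩

theorem sq_cur (hr : ‖r‖ ≤ ρ) (v l : M → V) (x : M) : ‖cur F A r v l x‖ ^ 2 ≤
    2 * (ρ * ‖v x‖) ^ 2 * Mp86.gr2 I F.e A l x + 2 * (ρ * ‖l x‖) ^ 2 * Mp86.gr2 I F.e A v x := by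
  rw [PiLp.norm_sq_eq_of_L2, Mp86.gr2_eq, Mp86.gr2_eq, Finset.mul_sum, Finset.mul_sum,
    ← Finset.sum_add_distrib]
  refine Finset.sum_le_sum fun a _ => (Mp86.normSq_add_le _ _).trans ?_
  have k : ∀ v w : V, ‖tp r v w‖ ^ 2 ≤ (ρ * ‖v‖) ^ 2 * ‖w‖ ^ 2 := fun v w => by
    rw [← mul_pow]
    exact pow_le_pow_left₀ (norm_nonneg _) ((norm_tp r v w).trans (by gcongr)) 2
  linarith [k (v x) (nab I F.e A a l x), k (l x) (nab I F.e A a v x)]

/-- the gradient of a word is dominated -/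
theorem dom_gc (hB : Bumps I F.e F.dv) (hA : Mc I A) (hK : 1 ≤ K) (hr : ‖r‖ ≤ ρ) {S : ℝ}
    (hs : ∀ x, ‖s x‖ ≤ S) : ∀ {w : List (SL M V)} {l : M → V} {R : ℝ}, (∀ t ∈ w, t.Le K) →
      (∀ x, ‖l x‖ ≤ R) → Dom F (8 * (4 * K ^ 2) ^ w.length * (ρ * S * R) ^ 2)
        fun x => ‖gc F A r s w l x‖ ^ 2
  | [], _, _, _, _ => (Dom.zero (by positivity)).mono le_rfl fun x => by simp [gc]
  | .op T :: w, l, R, hw, hl => (dom_gc hB hA hK hr hs (fun t ht => hw t (by simp [ht]))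
      fun y => (sl_le hB hA hK (hw (.op T) (by simp)) hl y).2).mono (by
        rw [List.length_cons, pow_succ (4 * K ^ 2)]
        nlinarith [show 0 ≤ (4 * K ^ 2) ^ w.length * (K ^ 2 * (ρ * S * R) ^ 2) by positivity])
      fun _ => le_rfl
  | .G :: w, l, R, hw, hl => by
    have hw' : ∀ t ∈ w, t.Le K := fun t ht => hw t (by simp [ht])
    have sq : ∀ {u : M → V} {c : ℝ}, (∀ x, ‖u x‖ ≤ c) → ∀ x, ‖u x‖ ^ 2 ≤ c ^ 2 := fun h x =>
      pow_le_pow_left₀ (norm_nonneg _) (h x) 2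
    obtain ⟨a1, a2⟩ := Dom.res hB hA (sq hl)
    obtain ⟨b1, b2⟩ := Dom.res hB hA (sq (wd_le hB hA hK hs hw'))
    refine ((((dom_gc hB hA hK hr hs hw' (Mp86.norm_res_le hB hA hl)).mul zero_le_two).add
      (a2.mul (C := 4 * (ρ ^ 2 * (K ^ w.length * S) ^ 2)) (by positivity))).add
      (b2.mul (C := 4 * (ρ ^ 2 * R ^ 2)) (by positivity))).mono ?_ fun x => ?_
    · have k1 : (K ^ w.length) ^ 2 ≤ (4 * K ^ 2) ^ w.length := by
        rw [← pow_mul, mul_comm, pow_mul]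
        exact pow_le_pow_left₀ (sq_nonneg _) (by nlinarith) _
      have k2 := mul_le_mul_of_nonneg_right k1 (sq_nonneg (ρ * S * R))
      have k3 : 1 ≤ K ^ 2 := one_le_pow₀ hK
      rw [List.length_cons, pow_succ (4 * K ^ 2)]
      nlinarith [mul_le_mul_of_nonneg_right k3
        (show 0 ≤ (4 * K ^ 2) ^ w.length * (ρ * S * R) ^ 2 by positivity)]
    · have k1 := sq_cur (F := F) (A := A) hr (F.res A (wd (sl F A) s w)) (F.res A l) x
      have k2 := Mp86.normSq_add_le (gc F A r s w (F.res A l) x)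
        (-cur F A r (F.res A (wd (sl F A) s w)) (F.res A l) x)
      rw [← sub_eq_add_neg, norm_neg] at k2
      have k3 := mul_le_mul_of_nonneg_right (mul_le_mul_of_nonneg_left (a1 x) (sq_nonneg ρ))
        (show 0 ≤ Mp86.gr2 I F.e A (F.res A (wd (sl F A) s w)) x from Mp86.gr2_nonneg)
      have k4 := mul_le_mul_of_nonneg_right (mul_le_mul_of_nonneg_left (b1 x) (sq_nonneg ρ))
        (show 0 ≤ Mp86.gr2 I F.e A (F.res A l) x from Mp86.gr2_nonneg)
      simp only [gc]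
      nlinarith

end words

/-! ### configurations -/

variable {lam : Type} [Fintype lam] {r : ℕ} {B : Base M ι lam} {G : Geo I M ι lam}
  {c : Cfg M ι lam r} {d : Cy M} {n : ℕ} {R : ℝ}

/-- the size of a seed -/
structure Cy.Sz (d : Cy M) (F : Fr I M ι) (n : ℕ) : Prop where
  sep : SepN F n d.f d.f'
  w : LLSz n d.w
  w' : LLSz n d.w'

theorem exists_llsz {F : Fr I M ι} {w : List (La M)} (h : ∀ t ∈ w, La.OK F t) :
    ∀ᶠ n in atTop, LLSz n w := by
  refine (eventually_ge_atTop _).and ((eventually_all_finite w.finite_toSet).2 fun t ht => ?_)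
  cases t with
  | mul f =>
    obtain ⟨C, hC⟩ := cb_bdd (h _ ht)
    exact (tendsto_natCast_atTop_atTop.eventually_ge_atTop C).mono fun n hn x => (hC x).trans hn
  | G => exact .of_forall fun _ => trivial

theorem Cy.OK.sz (hd : d.OK F) (hF : F.Tame C) : ∃ n, d.Sz F n := by
  obtain ⟨N, hN⟩ := hd.sep.sepN hF
  exact (((tendsto_natCast_atTop_atTop.eventually_ge_atTop N).and ((exists_llsz hd.w).and
    (exists_llsz hd.w'))).mono fun n h => ⟨hN.mono h.1, h.2.1, h.2.2⟩).exists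

theorem pq_conn (hB : B.OK I) (hT : ∃ C, G.F.Tame C) (H : c.m.OK I B) (h : c.m.IsConn B G c.W) :
    Pq G.F (c.m.adW c.W) c.m.pg where
  tame := hT
  mc := Eqv71.mc_adW h
  sm := Std94.sm_pg hB H
  sym := inner_pg
  idem x := ContinuousLinearMap.ext (pg_pg x)
  par := pg_par H h (Std94.sm_pg hB H)
  rk x := ((sum_proj (c.m.gS x)).trans (by rw [Std94.finrank_g hB (Std94.pmx H x)]; rfl)).le

theorem CO.pq (h : CO B G c) : Pq G.F (c.m.adW c.W) c.m.pg := pq_conn h.hB h.tame h.ok h.conn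

theorem norm_rr (F : Fr I M ι) (c : Cfg M ι lam r) : ‖rr F c‖ ≤ 2 :=
  ContinuousLinearMap.opNorm_le_bound _ zero_le_two fun ξ =>
    (ContinuousLinearMap.opNorm_le_bound _ (norm_nonneg _) (norm_amp _)).trans (norm_adR ξ)

theorem norm_adl {l : M → c.m.A} {u : M → Vc F c} {T : ℝ} (hl : ∀ x, ‖l x‖ ≤ R)
    (hu : ∀ x, ‖u x‖ ≤ T) (x : M) : ‖adl F c l u x‖ ≤ 2 * R * T :=
  (norm_rep _ _ _).trans (by
    have := (norm_nonneg _).trans (hl x)
    gcongr
    exacts [norm_rr F c, (norm_pg _ _).trans (hl x), hu x])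

namespace Cy.Sz
variable (hd : d.Sz F n) (V : Type) [NormedAddCommGroup V] [InnerProductSpace ℝ V] [CompleteSpace V]
include hd

theorem one : 1 ≤ kB S n := one_le_two.trans (le_kB n.cast_nonneg).1

theorem xw : WL (kB S n) 3 ((xw d.f d.f').map (laV V)) ∧ WL (kB S n) 3 ((xw d.f' d.f).map (laV V)) :=
  have a := fun x => (hd.sep.b x).trans (le_kB (S := S) n.cast_nonneg).2
  have b := fun x => (hd.sep.b' x).trans (le_kB (S := S) n.cast_nonneg).2
  ⟨wl_xw a b le_rfl, wl_xw b a le_rfl⟩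

omit hd in
theorem wl {w : List (La M)} (h : LLSz n w) : WL (kB S n) n (w.map (laV V)) :=
  wl_sz h (le_kB n.cast_nonneg).2 le_rfl

theorem W {w : List (La M)} (h : LLSz n w) :
    WL (kB S n) (n + 3) ((w ++ Cyc79.xw d.f d.f').map (laV V)) := by
  rw [List.map_append]; exact (wl V h).append (hd.xw V).1

variable (h : Pq F (c.m.adW c.W) c.m.pg) (hS : L4 F.toPre S) (hS0 : 0 < S)
include h hS hS0

theorem norm_W {w : List (La M)} (hw : LLSz n w) (x : M) :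
    ‖wv F c (bf F c d.f' d.f) (w ++ Cyc79.xw d.f d.f') x‖ ≤ kB S n ^ (n + 3) * kB S n :=
  (hd.W _ hw).wd h.bmp (h.mcA _) hd.one (h.bs_kB hS hS0 hd.sep.symm) x

/-- **the seed is bounded**, uniformly in the configuration -/
theorem norm_s (x : M) : ‖(d.sed F).s c x‖ ≤ 2 * (kB S n ^ (n + 3) * kB S n) ^ 2 :=
  (norm_pg _ _).trans ((norm_tp _ _ _).trans (by
    have := hd.one (S := S)
    rw [sq, ← mul_assoc]
    gcongr
    exacts [norm_rr F c, hd.norm_W h hS hS0 hd.w x, hd.norm_W h hS hS0 hd.w' x]))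

/-- the constant of the gradient -/
def _root_.Crest.Agent.X212.Cyc79.kD (K : ℝ) (n : ℕ) : ℝ :=
  2 * (8 * (4 * K ^ 2) ^ (n + 3) * (2 * K * (2 * (K ^ (n + 3) * K))) ^ 2) +
    2 * (8 * (4 * K ^ 2) ^ 3 * (2 * K * (K ^ (n + 3) * (2 * (K ^ n * K)))) ^ 2)

theorem dom_gh {w w' : List (La M)} (hw : LLSz n w) (hw' : LLSz n w') {l : M → c.m.A}
    (hl : ∀ x, ‖l x‖ ≤ R) :
    Dom F (kD (kB S n) n * R ^ 2) fun x => ‖gh F c d.f d.f' w w' (adl F c l) x‖ ^ 2 := by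
  have k1 := hd.one (S := S)
  have a1 := dom_gc (r := rr F c) h.bmp (h.mcA _) k1 (norm_rr F c) (h.bs_kB hS hS0 hd.sep.symm)
    (hd.W _ hw).2 (norm_adl hl (hd.norm_W h hS hS0 hw'))
  have a2 := dom_gc (r := rr F c) h.bmp (h.mcA _) k1 (norm_rr F c) (h.bs_kB hS hS0 hd.sep)
    (hd.xw _).2.2 ((hd.W _ hw).bk h.bmp (h.mcA _) k1 (norm_adl hl
      ((wl _ hw').wd h.bmp (h.mcA _) k1 (h.bs_kB hS hS0 hd.sep))))
  refine ((a1.mul zero_le_two).add (a2.mul zero_le_two)).mono ?_ fun x => Mp86.normSq_add_le _ _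
  have k2 : 1 ≤ 4 * kB S n ^ 2 := by nlinarith
  have e1 := pow_le_pow_right₀ k2 (hd.W (S := S) (Vc F c) hw).1
  have e2 := pow_le_pow_right₀ k2 (hd.xw (S := S) (Vc F c)).2.1
  rw [kD, add_mul]
  refine add_le_add ((mul_le_mul_of_nonneg_left (mul_le_mul_of_nonneg_right
    (mul_le_mul_of_nonneg_left e1 (by norm_num)) (sq_nonneg _)) zero_le_two).trans_eq (by ring))
    ((mul_le_mul_of_nonneg_left (mul_le_mul_of_nonneg_right
    (mul_le_mul_of_nonneg_left e2 (by norm_num)) (sq_nonneg _)) zero_le_two).trans_eq (by ring))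

/-- **the gradient is dominated**, uniformly in the configuration -/
theorem dom_sA {l : M → c.m.A} (hl : ∀ x, ‖l x‖ ≤ R) :
    Dom F (4 * kD (kB S n) n * R ^ 2) fun x => ‖(d.sed F).sA c l x‖ ^ 2 :=
  (((hd.dom_gh h hS hS0 hd.w' hd.w hl).mul zero_le_two).add
    ((hd.dom_gh h hS hS0 hd.w hd.w' hl).mul zero_le_two)).mono (le_of_eq (by ring)) fun x => by
    have := Mp86.normSq_add_le (gh F c d.f d.f' d.w' d.w (adl F c l) x)
      (-gh F c d.f d.f' d.w d.w' (adl F c l) x)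
    rwa [← sub_eq_add_neg, norm_neg] at this

end Cy.Sz

end Crest.Agent.X212.Cyc79
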